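import Mathlib
section
namespace Vale.Agent.P266.CE
inductive E where
  | var : Nat → E
  | const : Int → E
  | add : E → E → E
  | sub : E → E → E
  | mul : E → E → E
  | pow : E → Nat → E
namespace E
def ev {R : Type*} [CommRing R] (ρ : ℕ → R) : E → R
  | var i => ρ i
  | const c => (c : R)
  | add a b => ev ρ a + ev ρ b
  | sub a b => ev ρ a - ev ρ b
  | mul a b => ev ρ a * ev ρ b
  | pow a n => ev ρ a ^ n
noncomputable def poly : E → MvPolynomial ℕ ℤ
  | var i => MvPolynomial.X i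
  | const c => MvPolynomial.C c
  | add a b => poly a + poly b
  | sub a b => poly a - poly b
  | mul a b => poly a * poly b
  | pow a n => poly a ^ n
theorem ev_eq_aeval {R : Type*} [CommRing R] (ρ : ℕ → R) (e : E) :
    e.ev ρ = MvPolynomial.aeval ρ e.poly := by
  induction e with
  | var i => simp [ev, poly]
  | const c => simp [ev, poly]
  | add a b ha hb => simp [ev, poly, ha, hb]
  | sub a b ha hb => simp [ev, poly, ha, hb]
  | mul a b ha hb => simp [ev, poly, ha, hb]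
  | pow a n ha => simp [ev, poly, ha]
def evZ (pt : Nat → Int) : E → Int
  | var i => pt i
  | const c => c
  | add a b => Int.add (evZ pt a) (evZ pt b)
  | sub a b => Int.sub (evZ pt a) (evZ pt b)
  | mul a b => Int.mul (evZ pt a) (evZ pt b)
  | pow a n => Int.pow (evZ pt a) n
theorem evZ_eq (pt : ℕ → ℤ) (e : E) : e.evZ pt = MvPolynomial.eval pt e.poly := by
  induction e with
  | var i => simp [evZ, poly]
  | const c => simp [evZ, poly]
  | add a b ha hb => rw [evZ, poly, map_add, ← ha, ← hb]; rfl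
  | sub a b ha hb => rw [evZ, poly, map_sub, ← ha, ← hb]; rfl
  | mul a b ha hb => rw [evZ, poly, map_mul, ← ha, ← hb]; rfl
  | pow a n ha => rw [evZ, poly, map_pow, ← ha]; rfl
def nrm : E → Nat
  | var _ => 1
  | const c => Int.natAbs c
  | add a b => Nat.add (nrm a) (nrm b)
  | sub a b => Nat.add (nrm a) (nrm b)
  | mul a b => Nat.mul (nrm a) (nrm b)
  | pow a n => Nat.pow (nrm a) n
def deg (i : Nat) : E → Nat
  | var j => cond (Nat.beq i j) 1 0
  | const _ => 0
  | add a b => Nat.max (deg i a) (deg i b)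
  | sub a b => Nat.max (deg i a) (deg i b)
  | mul a b => Nat.add (deg i a) (deg i b)
  | pow a n => Nat.mul n (deg i a)
def vb (n : Nat) : E → Bool
  | var j => Nat.blt j n
  | const _ => true
  | add a b => and (vb n a) (vb n b)
  | sub a b => and (vb n a) (vb n b)
  | mul a b => and (vb n a) (vb n b)
  | pow a _ => vb n a
def Dom (p q : MvPolynomial ℕ ℤ) : Prop := ∀ m, |p.coeff m| ≤ q.coeff m
theorem Dom.add {p q p' q' : MvPolynomial ℕ ℤ} (h : Dom p p') (h' : Dom q q') :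
    Dom (p + q) (p' + q') := fun m => by
  rw [MvPolynomial.coeff_add, MvPolynomial.coeff_add]
  exact (abs_add_le _ _).trans (add_le_add (h m) (h' m))
theorem Dom.sub {p q p' q' : MvPolynomial ℕ ℤ} (h : Dom p p') (h' : Dom q q') :
    Dom (p - q) (p' + q') := fun m => by
  rw [MvPolynomial.coeff_sub, MvPolynomial.coeff_add]
  exact (abs_sub _ _).trans (add_le_add (h m) (h' m))
theorem Dom.mul {p q p' q' : MvPolynomial ℕ ℤ} (h : Dom p p') (h' : Dom q q') :
    Dom (p * q) (p' * q') := fun m => by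
  classical
  rw [MvPolynomial.coeff_mul, MvPolynomial.coeff_mul]
  refine (Finset.abs_sum_le_sum_abs _ _).trans (Finset.sum_le_sum fun x _ => ?_)
  rw [abs_mul]
  exact mul_le_mul (h _) (h' _) (abs_nonneg _) ((abs_nonneg _).trans (h _))
theorem Dom.one : Dom 1 1 := fun m => by
  classical
  rw [MvPolynomial.coeff_one]; split_ifs <;> simp
theorem Dom.pow {p p' : MvPolynomial ℕ ℤ} (h : Dom p p') (n : ℕ) : Dom (p ^ n) (p' ^ n) := by
  induction n with
  | zero => simpa using Dom.one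
  | succ n ih => rw [pow_succ, pow_succ]; exact ih.mul h
noncomputable def pos : E → MvPolynomial ℕ ℤ
  | var i => MvPolynomial.X i
  | const c => MvPolynomial.C |c|
  | add a b => pos a + pos b
  | sub a b => pos a + pos b
  | mul a b => pos a * pos b
  | pow a n => pos a ^ n
theorem dom_pos (e : E) : Dom e.poly e.pos := by
  classical
  induction e with
  | var i => intro m; simp only [poly, pos, MvPolynomial.coeff_X]; split_ifs <;> simp
  | const c => intro m; simp only [poly, pos, MvPolynomial.coeff_C]; split_ifs <;> simp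
  | add a b ha hb => exact ha.add hb
  | sub a b ha hb => exact ha.sub hb
  | mul a b ha hb => exact ha.mul hb
  | pow a n ha => exact ha.pow n
theorem eval_pos (e : E) : MvPolynomial.eval (fun _ => (1 : ℤ)) e.pos = (e.nrm : ℤ) := by
  induction e with
  | var i => simp [pos, nrm]
  | const c => simp [pos, nrm]
  | add a b ha hb => rw [pos, map_add, ha, hb, nrm]; exact (Nat.cast_add _ _).symm
  | sub a b ha hb => rw [pos, map_add, ha, hb, nrm]; exact (Nat.cast_add _ _).symm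
  | mul a b ha hb => rw [pos, map_mul, ha, hb, nrm]; exact (Nat.cast_mul _ _).symm
  | pow a n ha => rw [pos, map_pow, ha, nrm]; exact (Nat.cast_pow _ _).symm
theorem abs_coeff_le (e : E) (m : ℕ →₀ ℕ) : |e.poly.coeff m| ≤ (e.nrm : ℤ) := by
  refine (dom_pos e m).trans ?_
  rw [← eval_pos, MvPolynomial.eval_eq]
  have h0 : ∀ m, 0 ≤ e.pos.coeff m := fun m => (abs_nonneg _).trans (dom_pos e m)
  by_cases hm : m ∈ e.pos.support
  · refine le_trans (le_of_eq ?_) (Finset.single_le_sum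
      (f := fun d => e.pos.coeff d * ∏ i ∈ d.support, (1 : ℤ) ^ d i) (fun i _ => ?_) hm)
    · simp
    · simpa using h0 i
  · rw [MvPolynomial.notMem_support_iff.1 hm]
    exact Finset.sum_nonneg fun i _ => by simpa using h0 i
theorem degreeOf_le (i : ℕ) (e : E) : e.poly.degreeOf i ≤ e.deg i := by
  classical
  induction e with
  | var j =>
    rw [poly, deg, MvPolynomial.degreeOf_X]
    by_cases h : i = j
    · subst h; simp
    · simp [h]
  | const c => rw [poly, MvPolynomial.degreeOf_C]; exact Nat.zero_le _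
  | add a b ha hb =>
    exact (MvPolynomial.degreeOf_add_le _ _ _).trans (max_le_max ha hb)
  | sub a b ha hb =>
    exact (MvPolynomial.degreeOf_sub_le _ _ _).trans (max_le_max ha hb)
  | mul a b ha hb =>
    exact (MvPolynomial.degreeOf_mul_le _ _ _).trans (add_le_add ha hb)
  | pow a n ha =>
    exact (MvPolynomial.degreeOf_pow_le _ _ _).trans (Nat.mul_le_mul_left n ha)
theorem vb_of {n : ℕ} {e : E} (h : e.vb n = true) {m : ℕ →₀ ℕ} (hm : m ∈ e.poly.support)
    {i : ℕ} (hi : n ≤ i) : m i = 0 := by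
  have key : e.deg i = 0 := by
    clear hm
    induction e with
    | var j =>
      have h1 : j < n := by simpa [vb, Nat.blt] using h
      have h2 : Nat.beq i j = false := by
        rw [Bool.eq_false_iff]; intro h3
        have := Nat.eq_of_beq_eq_true h3
        omega
      simp [deg, h2]
    | const c => rfl
    | add a b ha hb =>
      simp only [vb, Bool.and_eq_true] at h
      simp [deg, ha h.1, hb h.2]
    | sub a b ha hb =>
      simp only [vb, Bool.and_eq_true] at h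
      simp [deg, ha h.1, hb h.2]
    | mul a b ha hb =>
      simp only [vb, Bool.and_eq_true] at h
      simp [deg, ha h.1, hb h.2]
    | pow a n ha =>
      simp only [vb] at h
      simp [deg, ha h]
  have h1 := degreeOf_le i e
  rw [key, Nat.le_zero] at h1
  have := MvPolynomial.monomial_le_degreeOf i hm
  omega
def wt : List Nat → Nat → Nat
  | _, 0 => 1
  | [], _ + 1 => 1
  | d :: D, i + 1 => Nat.mul d (wt D i)
def expo : List ℕ → (ℕ → ℕ) → ℕ
  | [], _ => 0
  | d :: D, m => m 0 + d * expo D (fun i => m (i + 1))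
theorem expo_eq_sum (D : List ℕ) (m : ℕ → ℕ) :
    expo D m = ∑ i ∈ Finset.range D.length, wt D i * m i := by
  induction D generalizing m with
  | nil => simp [expo]
  | cons d D ih =>
    rw [expo, ih, List.length_cons, Finset.sum_range_succ', Finset.mul_sum, add_comm]
    congr 1
    · refine Finset.sum_congr rfl fun i _ => ?_
      rw [wt, ← mul_assoc]; rfl
    · simp [wt]
theorem expo_inj (D : List ℕ) (m m' : ℕ → ℕ) (h : ∀ i, (hi : i < D.length) → m i < D[i])
    (h' : ∀ i, (hi : i < D.length) → m' i < D[i]) (he : expo D m = expo D m') :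
    ∀ i < D.length, m i = m' i := by
  induction D generalizing m m' with
  | nil => intro i hi; simp at hi
  | cons d D ih =>
    have h0 : m 0 < d := h 0 (by simp)
    have h0' : m' 0 < d := h' 0 (by simp)
    simp only [expo] at he
    have e1 : m 0 = m' 0 := by
      have := congrArg (· % d) he
      simpa [Nat.add_mul_mod_self_left, Nat.mod_eq_of_lt h0, Nat.mod_eq_of_lt h0'] using this
    have e2 : expo D (fun i => m (i + 1)) = expo D (fun i => m' (i + 1)) := by
      rw [e1] at he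
      exact Nat.eq_of_mul_eq_mul_left (by omega) (Nat.add_left_cancel he)
    have := ih _ _ (fun i hi => h (i + 1) (by simpa using hi))
      (fun i hi => h' (i + 1) (by simpa using hi)) e2
    intro i hi
    cases i with
    | zero => exact e1
    | succ i => exact this i (by simpa using hi)
def ptv (k : Nat) (D : List Nat) (i : Nat) : Int := Int.ofNat (Nat.pow 2 (Nat.mul k (wt D i)))
theorem prod_ptv (k : ℕ) (D : List ℕ) (m : ℕ →₀ ℕ) (hm : ∀ i, D.length ≤ i → m i = 0) :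
    ∏ i ∈ m.support, ptv k D i ^ m i = ((2 : ℤ) ^ k) ^ expo D m := by
  have h1 : ∏ i ∈ m.support, ptv k D i ^ m i =
      ∏ i ∈ Finset.range D.length, ptv k D i ^ m i := by
    refine Finset.prod_subset (fun i hi => ?_) (fun i _ hi => ?_)
    · rw [Finset.mem_range]
      by_contra hc
      exact (Finsupp.mem_support_iff.1 hi) (hm i (not_lt.1 hc))
    · rw [Finsupp.notMem_support_iff.1 hi, pow_zero]
  rw [h1, expo_eq_sum, ← Finset.prod_pow_eq_pow_sum]
  refine Finset.prod_congr rfl fun i _ => ?_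
  have : ptv k D i = ((2 : ℤ) ^ k) ^ wt D i := by
    rw [← pow_mul]
    change ((2 ^ (k * wt D i) : ℕ) : ℤ) = _
    push_cast; rfl
  rw [this, ← pow_mul]
theorem digits {ι : Type*} (s : Finset ι) (c : ι → ℤ) (φ : ι → ℕ) (B : ℤ)
    (hφ : ∀ a ∈ s, ∀ b ∈ s, φ a = φ b → a = b) (hc : ∀ a ∈ s, c a ≠ 0)
    (hB : ∀ a ∈ s, |c a| < B) (h : ∑ a ∈ s, c a * B ^ φ a = 0) : s = ∅ := by
  classical
  by_contra hne
  obtain ⟨a, ha, hmin⟩ := Finset.exists_min_image s φ (Finset.nonempty_iff_ne_empty.2 hne)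
  have hBpos : 0 < B := (abs_nonneg _).trans_lt (hB a ha)
  rw [← Finset.add_sum_erase s _ ha] at h
  have hd : B ^ (φ a + 1) ∣ ∑ x ∈ s.erase a, c x * B ^ φ x := by
    refine Finset.dvd_sum fun x hx => Dvd.dvd.mul_left (pow_dvd_pow _ ?_) _
    have hx' := Finset.mem_erase.1 hx
    have h1 := hmin x hx'.2
    have h2 : φ a ≠ φ x := fun e => hx'.1 (hφ a ha x hx'.2 e).symm
    omega
  have hd2 : B ^ (φ a + 1) ∣ c a * B ^ φ a := by
    have := dvd_neg.2 hd
    rwa [← eq_neg_of_add_eq_zero_left h] at this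
  have hd3 : B ∣ c a := by
    rw [pow_succ, mul_comm] at hd2
    exact Int.dvd_of_mul_dvd_mul_right (pow_ne_zero _ hBpos.ne') hd2
  exact hc a ha (Int.eq_zero_of_abs_lt_dvd hd3 (hB a ha))
def degOK (e : E) : List Nat → Nat → Bool
  | [], _ => true
  | d :: D, i => and (Nat.blt (deg i e) d) (degOK e D (i + 1))
theorem degOK_spec (e : E) (D : List ℕ) (j : ℕ) (h : degOK e D j = true) :
    ∀ i, (hi : i < D.length) → deg (j + i) e < D[i] := by
  induction D generalizing j with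
  | nil => intro i hi; simp at hi
  | cons d D ih =>
    simp only [degOK, Bool.and_eq_true] at h
    intro i hi
    cases i with
    | zero => simpa [Nat.blt] using h.1
    | succ i =>
      have := ih (j + 1) h.2 i (by simpa using hi)
      simpa [add_assoc, add_comm 1 i] using this
def check (k : Nat) (D : List Nat) (e : E) : Bool :=
  and (and (vb D.length e) (degOK e D 0))
    (and (Nat.blt (nrm e) (Nat.pow 2 k)) (decide (evZ (ptv k D) e = 0)))
theorem poly_eq_zero {k : ℕ} {D : List ℕ} {e : E} (h : check k D e = true) : e.poly = 0 := by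
  simp only [check, Bool.and_eq_true, decide_eq_true_eq] at h
  obtain ⟨⟨h1, h2⟩, h3, h4⟩ := h
  have h3' : e.nrm < 2 ^ k := by simpa [Nat.blt] using h3
  rw [evZ_eq, MvPolynomial.eval_eq] at h4
  have hz : ∀ m ∈ e.poly.support, ∀ i, D.length ≤ i → m i = 0 :=
    fun m hm i hi => vb_of h1 hm hi
  have hlt : ∀ m ∈ e.poly.support, ∀ i, (hi : i < D.length) → m i < D[i] := by
    intro m hm i hi
    have a1 := degOK_spec e D 0 h2 i hi
    rw [zero_add] at a1
    exact ((MvPolynomial.monomial_le_degreeOf i hm).trans (degreeOf_le i e)).trans_lt a1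
  have := digits e.poly.support (fun m => e.poly.coeff m) (fun m => expo D m) ((2 : ℤ) ^ k)
    (fun a ha b hb hab => ?_) (fun a ha => MvPolynomial.mem_support_iff.1 ha)
    (fun a ha => (abs_coeff_le e a).trans_lt (by exact_mod_cast h3')) ?_
  · exact MvPolynomial.support_eq_empty.1 this
  · ext i
    by_cases hi : i < D.length
    · exact expo_inj D a b (hlt a ha) (hlt b hb) hab i hi
    · rw [hz a ha i (not_lt.1 hi), hz b hb i (not_lt.1 hi)]
  · rw [← h4]
    exact Finset.sum_congr rfl fun m hm => by rw [prod_ptv k D m (hz m hm)]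
theorem ev_eq_zero {k : ℕ} {D : List ℕ} {e : E} (h : check k D e = true)
    {R : Type*} [CommRing R] (ρ : ℕ → R) : e.ev ρ = 0 := by
  rw [ev_eq_aeval, poly_eq_zero h, map_zero]
end E
end Vale.Agent.P266.CE
end
section
namespace Vale.Agent.P266.CE.E
def d (δ : Nat → E) : E → E
  | var i => δ i
  | const _ => const 0
  | add a b => add (d δ a) (d δ b)
  | sub a b => sub (d δ a) (d δ b)
  | mul a b => add (mul (d δ a) b) (mul a (d δ b))
  | pow _ 0 => const 0
  | pow a (n + 1) => mul (mul (const (Int.ofNat (n + 1))) (pow a n)) (d δ a)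
def pd (j : Nat) (e : E) : E := d (fun i => cond (Nat.beq i j) (const 1) (const 0)) e
def dv {R : Type*} [CommRing R] (ρ a : ℕ → R) : E → R
  | var i => a i
  | const _ => 0
  | add e f => dv ρ a e + dv ρ a f
  | sub e f => dv ρ a e - dv ρ a f
  | mul e f => dv ρ a e * f.ev ρ + e.ev ρ * dv ρ a f
  | pow _ 0 => 0
  | pow e (n + 1) => ((n + 1 : ℕ) : R) * e.ev ρ ^ n * dv ρ a e
theorem d_ev {R : Type*} [CommRing R] (ρ : ℕ → R) (δ : ℕ → E) (e : E) :
    (e.d δ).ev ρ = dv ρ (fun i => (δ i).ev ρ) e := by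
  induction e with
  | var i => rfl
  | const c => simp [d, dv, ev]
  | add a b ha hb => simp only [d, dv, ev, ha, hb]
  | sub a b ha hb => simp only [d, dv, ev, ha, hb]
  | mul a b ha hb => simp only [d, dv, ev, ha, hb]
  | pow a n ha =>
    cases n with
    | zero => simp [d, dv, ev]
    | succ n => simp [d, dv, ev, ha]
theorem derivation_ev {k R : Type*} [CommRing k] [CommRing R] [Algebra k R]
    (D : Derivation k R R) (ρ : ℕ → R) (e : E) : D (e.ev ρ) = dv ρ (fun i => D (ρ i)) e := by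
  induction e with
  | var i => rfl
  | const c =>
    have : ((c : ℤ) : R) = algebraMap k R (c : k) := by simp
    rw [ev, this, D.map_algebraMap]; rfl
  | add a b ha hb => simp only [ev, dv, map_add, ha, hb]
  | sub a b ha hb => simp only [ev, dv, map_sub, ha, hb]
  | mul a b ha hb =>
    simp only [ev, dv, Derivation.leibniz, ha, hb, smul_eq_mul]; ring
  | pow a n ha =>
    cases n with
    | zero => simp [ev, dv]
    | succ n =>
      simp only [ev, dv, Derivation.leibniz_pow, ha, smul_eq_mul, nsmul_eq_mul,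
        Nat.add_sub_cancel]
      ring
def occ (i : Nat) : E → Bool
  | var j => Nat.beq i j
  | const _ => false
  | add a b => or (occ i a) (occ i b)
  | sub a b => or (occ i a) (occ i b)
  | mul a b => or (occ i a) (occ i b)
  | pow a _ => occ i a
theorem dv_sub {R : Type*} [CommRing R] (ρ a b : ℕ → R) (j : ℕ) (e : E)
    (h : ∀ i, i ≠ j → occ i e = true → a i = b i) :
    dv ρ a e - dv ρ b e = (pd j e).ev ρ * (a j - b j) := by
  induction e with
  | var i =>
    by_cases hij : i = j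
    · subst hij
      have : (Nat.beq i i) = true := by simp
      simp [dv, pd, d, ev]
    · have h1 : a i = b i := h i hij (by simp [occ])
      have h2 : (Nat.beq i j) = false := by
        rw [Bool.eq_false_iff]; intro h3; exact hij (Nat.eq_of_beq_eq_true h3)
      simp [dv, pd, d, ev, h1, h2]
  | const c => simp [dv, pd, d, ev]
  | add e f he hf =>
    have e1 := he fun i hi ho => h i hi (by simp [occ, ho])
    have f1 := hf fun i hi ho => h i hi (by simp [occ, ho])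
    simp only [pd, d, dv, ev] at *
    linear_combination e1 + f1
  | sub e f he hf =>
    have e1 := he fun i hi ho => h i hi (by simp [occ, ho])
    have f1 := hf fun i hi ho => h i hi (by simp [occ, ho])
    simp only [pd, d, dv, ev] at *
    linear_combination e1 - f1
  | mul e f he hf =>
    have e1 := he fun i hi ho => h i hi (by simp [occ, ho])
    have f1 := hf fun i hi ho => h i hi (by simp [occ, ho])
    simp only [pd, d, dv, ev] at *
    linear_combination f.ev ρ * e1 + e.ev ρ * f1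
  | pow e n he =>
    cases n with
    | zero => simp [dv, pd, d, ev]
    | succ n =>
      have e1 := he fun i hi ho => h i hi (by simpa [occ] using ho)
      have hc : ((Int.ofNat (n + 1) : ℤ) : R) = (n : R) + 1 := by simp
      simp only [pd, d, dv, ev, hc] at *
      push_cast
      linear_combination (n + 1 : R) * e.ev ρ ^ n * e1
theorem der_of_rel {k Ω : Type*} [CommRing k] [CommRing Ω] [IsDomain Ω] [Algebra k Ω]
    (D : Derivation k Ω Ω) (ρ : ℕ → Ω) (δ : ℕ → E) (j : ℕ) (rel : E)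
    (h0 : rel.ev ρ = 0) (hother : ∀ i, i ≠ j → occ i rel = true → D (ρ i) = (δ i).ev ρ)
    (hne : (pd j rel).ev ρ ≠ 0) (hcert : (rel.d δ).ev ρ = 0) : D (ρ j) = (δ j).ev ρ := by
  have h1 := dv_sub ρ (fun i => D (ρ i)) (fun i => (δ i).ev ρ) j rel hother
  rw [← derivation_ev D ρ rel, h0, map_zero, ← d_ev, hcert, sub_zero] at h1
  exact sub_eq_zero.1 ((mul_eq_zero.1 h1.symm).resolve_left hne)
def lc : List (E × E) → E
  | [] => const 0
  | (c, r) :: l => add (mul c r) (lc l)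
theorem lc_eq_zero {R : Type*} [CommRing R] (ρ : ℕ → R) (l : List (E × E))
    (h : ∀ p ∈ l, p.2.ev ρ = 0) : (lc l).ev ρ = 0 := by
  induction l with
  | nil => simp [lc, ev]
  | cons p l ih =>
    obtain ⟨c, r⟩ := p
    have h1 : r.ev ρ = 0 := h (c, r) (by simp)
    simp only [lc, ev, h1, mul_zero, zero_add]
    exact ih fun p hp => h p (by simp [hp])
theorem ev_zero_of_lc {k : ℕ} {D : List ℕ} {e : E} (l : List (E × E))
    (h : check k D (sub e (lc l)) = true)
    {R : Type*} [CommRing R] (ρ : ℕ → R) (hl : ∀ p ∈ l, p.2.ev ρ = 0) : e.ev ρ = 0 := by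
  have h1 := ev_eq_zero h ρ
  rw [ev, lc_eq_zero ρ l hl, sub_zero] at h1
  exact h1
end Vale.Agent.P266.CE.E
end
section
namespace Vale.Agent.P266.CE.E
def hx : List Int → E
  | [] => const 0
  | [c] => const c
  | c :: l => add (const c) (mul (var 0) (hx l))
def hr : List (List Int) → E
  | [] => const 0
  | [c] => hx c
  | c :: l => add (hx c) (mul (var 1) (hr l))
def isZ : E → Bool
  | const (Int.ofNat 0) => true
  | _ => false
theorem ev_of_isZ {R : Type*} [CommRing R] (ρ : ℕ → R) {e : E} (h : isZ e = true) :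
    e.ev ρ = 0 := by
  cases e with
  | const c =>
    cases c with
    | ofNat n =>
      cases n with
      | zero => simp [ev]
      | succ n => exact absurd h Bool.false_ne_true
    | negSucc n => exact absurd h Bool.false_ne_true
  | _ => exact absurd h Bool.false_ne_true
def sadd (a b : E) : E := bif isZ a then b else bif isZ b then a else add a b
def smul (a b : E) : E := bif isZ a then const 0 else bif isZ b then const 0 else mul a b
theorem ev_sadd {R : Type*} [CommRing R] (ρ : ℕ → R) (a b : E) :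
    (sadd a b).ev ρ = a.ev ρ + b.ev ρ := by
  unfold sadd
  cases ha : isZ a
  · cases hb : isZ b
    · simp [ev]
    · simp [ev_of_isZ ρ hb]
  · simp [ev_of_isZ ρ ha]
theorem ev_smul {R : Type*} [CommRing R] (ρ : ℕ → R) (a b : E) :
    (smul a b).ev ρ = a.ev ρ * b.ev ρ := by
  unfold smul
  cases ha : isZ a
  · cases hb : isZ b
    · simp [ev]
    · simp [ev_of_isZ ρ hb, ev]
  · simp [ev_of_isZ ρ ha, ev]
section
variable {R : Type*} [CommRing R]
def lin (ρ b : ℕ → R) : List E → ℕ → R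
  | [], _ => 0
  | c :: v, i => c.ev ρ * b i + lin ρ b v (i + 1)
def vadd : List E → List E → List E
  | [], w => w
  | v, [] => v
  | a :: v, b :: w => sadd a b :: vadd v w
def vsmul (c : E) : List E → List E
  | [] => []
  | a :: v => smul c a :: vsmul c v
theorem lin_vadd (ρ b : ℕ → R) (v w : List E) (i : ℕ) :
    lin ρ b (vadd v w) i = lin ρ b v i + lin ρ b w i := by
  induction v generalizing w i with
  | nil => simp [vadd, lin]
  | cons a v ih =>
    cases w with
    | nil => simp [vadd, lin]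
    | cons c w => simp only [vadd, lin, ih, ev_sadd]; ring
theorem lin_vsmul (ρ b : ℕ → R) (c : E) (v : List E) (i : ℕ) :
    lin ρ b (vsmul c v) i = c.ev ρ * lin ρ b v i := by
  induction v generalizing i with
  | nil => simp [vsmul, lin]
  | cons a v ih => simp only [vsmul, lin, ih, ev_smul]; ring
def app : List (List E) → List E → List E
  | [], _ => []
  | _, [] => []
  | m :: M, c :: v => vadd (vsmul c m) (app M v)
def IsMat (ρ b : ℕ → R) (g : R) (M : List (List E)) (i : ℕ) : Prop :=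
  ∀ j, g * b (i + j) = lin ρ b (M.getD j []) 0
theorem lin_app' {ρ b : ℕ → R} {g : R} {M : List (List E)} {i : ℕ} (hM : IsMat ρ b g M i)
    (v : List E) : lin ρ b (app M v) 0 = g * lin ρ b v i := by
  induction M generalizing v i with
  | nil =>
    have h0 : ∀ (v : List E) (i : ℕ), (∀ j, g * b (i + j) = 0) → g * lin ρ b v i = 0 := by
      intro v
      induction v with
      | nil => intro i _; simp [lin]
      | cons c v ih =>
        intro i h
        have h1 := h 0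
        rw [add_zero] at h1
        have h2 := ih (i + 1) (fun j => by rw [show i + 1 + j = i + (j + 1) by ring]; exact h _)
        rw [lin, mul_add, h2, add_zero, mul_left_comm, h1, mul_zero]
    have h1 : ∀ j, g * b (i + j) = 0 := fun j => by rw [hM j]; simp [lin]
    rw [h0 v i h1]
    cases v <;> rfl
  | cons m M ih =>
    cases v with
    | nil => simp [app, lin]
    | cons c v =>
      have h0 := hM 0
      have h1 : IsMat ρ b g M (i + 1) := by
        intro j
        have := hM (j + 1)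
        rw [show i + 1 + j = i + (j + 1) by ring]
        simpa using this
      simp only [app, lin_vadd, lin_vsmul, lin, ih h1 v]
      simp only [add_zero, List.getD_cons_zero] at h0
      rw [← h0]
      ring
theorem lin_app {ρ b : ℕ → R} {g : R} {M : List (List E)} (hM : IsMat ρ b g M 0)
    (v : List E) : lin ρ b (app M v) 0 = g * lin ρ b v 0 := lin_app' hM v
def vneg : List E → List E
  | [] => []
  | a :: v => (bif isZ a then const 0 else sub (const 0) a) :: vneg v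
theorem lin_vneg (ρ b : ℕ → R) (v : List E) (i : ℕ) :
    lin ρ b (vneg v) i = - lin ρ b v i := by
  induction v generalizing i with
  | nil => simp [vneg, lin]
  | cons a v ih =>
    simp only [vneg, lin, ih]
    cases h : isZ a
    · simp [ev]; ring
    · simp [ev, ev_of_isZ ρ h]
def allZ (k : Nat) (D : List Nat) : List E → Bool
  | [] => true
  | a :: v => and (or (isZ a) (check k D a)) (allZ k D v)
def eqV (k : Nat) (D : List Nat) (v w : List E) : Bool := allZ k D (vadd v (vneg w))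
theorem lin_of_allZ {k : ℕ} {D : List ℕ} {v : List E} (h : allZ k D v = true) (ρ b : ℕ → R)
    (i : ℕ) : lin ρ b v i = 0 := by
  induction v generalizing i with
  | nil => rfl
  | cons a v ih =>
    simp only [allZ, Bool.and_eq_true, Bool.or_eq_true] at h
    have ha : a.ev ρ = 0 := h.1.elim (fun h => ev_of_isZ ρ h) (fun h => ev_eq_zero h ρ)
    simp [lin, ha, ih h.2]
theorem lin_eq_of_eqV {k : ℕ} {D : List ℕ} {v w : List E} (h : eqV k D v w = true)
    (ρ b : ℕ → R) (i : ℕ) : lin ρ b v i = lin ρ b w i := by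
  have := lin_of_allZ h ρ b i
  rw [lin_vadd, lin_vneg] at this
  exact eq_of_sub_eq_zero (by rw [sub_eq_add_neg]; exact this)
def row : List E → List E → E
  | [], _ => const 0
  | _, [] => const 0
  | m :: M, c :: C => sadd (smul m c) (row M C)
theorem row_eq (ρ b : ℕ → R) (d : R) (M C : List E) (i : ℕ)
    (hC : ∀ j, d * b (i + j) = (C.getD j (const 0)).ev ρ) :
    (row M C).ev ρ = d * lin ρ b M i := by
  induction M generalizing C i with
  | nil => simp [row, lin, ev]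
  | cons m M ih =>
    cases C with
    | nil =>
      have h0 : ∀ (v : List E) (i : ℕ), (∀ j, d * b (i + j) = 0) → d * lin ρ b v i = 0 := by
        intro v
        induction v with
        | nil => intro i _; simp [lin]
        | cons c v ih =>
          intro i h
          have h1 := h 0
          rw [add_zero] at h1
          have h2 := ih (i + 1) (fun j => by rw [show i + 1 + j = i + (j + 1) by ring]; exact h _)
          rw [lin, mul_add, h2, add_zero, mul_left_comm, h1, mul_zero]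
      rw [h0 _ _ (fun j => by rw [hC j]; simp [ev])]
      simp [row, ev]
    | cons c C =>
      have h0 := hC 0
      simp only [add_zero, List.getD_cons_zero] at h0
      have h1 : ∀ j, d * b (i + 1 + j) = (C.getD j (const 0)).ev ρ := by
        intro j
        have := hC (j + 1)
        rw [show i + 1 + j = i + (j + 1) by ring]
        simpa using this
      rw [row, ev_sadd, ev_smul, ih C (i + 1) h1, lin, ← h0]
      ring
def rowsOK (k : Nat) (D : List Nat) (g : E) (C : List E) :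
    List E → List (List E) → List (List (E × E)) → Bool
  | [], [], _ => true
  | c :: C', m :: M, l :: L =>
    and (check k D (sub (sub (mul g c) (row m C)) (lc l))) (rowsOK k D g C C' M L)
  | _, _, _ => false
end
section field
variable {K : Type*} [Field K]
theorem isMat_of_rowsOK {ρ b : ℕ → K} {d : K} (hd : d ≠ 0) {k : ℕ} {D : List ℕ} {g : E}
    {C : List E} (hC : ∀ j, d * b (0 + j) = (C.getD j (const 0)).ev ρ)
    {C' : List E} {M : List (List E)} {L : List (List (E × E))} {i : ℕ}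
    (h : rowsOK k D g C C' M L = true)
    (hC' : ∀ j, d * b (i + j) = (C'.getD j (const 0)).ev ρ)
    (hL : ∀ l ∈ L, ∀ p ∈ l, p.2.ev ρ = 0) : IsMat ρ b (g.ev ρ) M i := by
  induction C' generalizing M L i with
  | nil =>
    cases M with
    | nil =>
      intro j
      have h1 : d * b (i + j) = 0 := by rw [hC' j]; simp [ev]
      have h2 : b (i + j) = 0 := (mul_eq_zero.1 h1).resolve_left hd
      simp [h2, lin]
    | cons m M => simp [rowsOK] at h
  | cons c C' ih =>
    cases M with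
    | nil => simp [rowsOK] at h
    | cons m M =>
      cases L with
      | nil => simp [rowsOK] at h
      | cons l L =>
        simp only [rowsOK, Bool.and_eq_true] at h
        have h1 := ih h.2 (fun j => by
          have := hC' (j + 1)
          rw [show i + 1 + j = i + (j + 1) by ring]
          simpa using this) (fun l hl => hL l (by simp [hl]))
        intro j
        cases j with
        | zero =>
          have h2 := ev_zero_of_lc l h.1 ρ (hL l (by simp))
          have h3 := hC' 0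
          simp only [add_zero, List.getD_cons_zero] at h3
          rw [ev, ev, row_eq ρ b d m C 0 hC, ← h3] at h2
          rw [add_zero, List.getD_cons_zero]
          apply mul_left_cancel₀ hd
          linear_combination h2
        | succ j =>
          have := h1 j
          rw [show i + (j + 1) = i + 1 + j by ring]
          simpa using this
end field
theorem lin_eq_sum {R : Type*} [CommRing R] (ρ b : ℕ → R) (v : List E) (n i : ℕ)
    (h : v.length ≤ n) :
    lin ρ b v i = ∑ k ∈ Finset.range n, (v.getD k (const 0)).ev ρ * b (i + k) := by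
  induction n generalizing v i with
  | zero =>
    have : v = [] := by
      rw [← List.length_eq_zero_iff]
      omega
    subst this
    simp [lin]
  | succ n ih =>
    cases v with
    | nil =>
      rw [lin]
      symm
      refine Finset.sum_eq_zero fun k _ => ?_
      simp [ev]
    | cons c v =>
      rw [lin, ih v (i + 1) (by simpa using h), Finset.sum_range_succ']
      simp only [List.getD_cons_succ, List.getD_cons_zero, add_zero]
      rw [add_comm]
      congr 1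
      refine Finset.sum_congr rfl fun k _ => ?_
      rw [show i + 1 + k = i + (k + 1) by ring]
def vAll : List E → Bool
  | [] => true
  | a :: v => and (a.vb 2) (vAll v)
theorem vb_getD {v : List E} (h : vAll v = true) (k : ℕ) : (v.getD k (const 0)).vb 2 = true := by
  induction v generalizing k with
  | nil => simp [vb]
  | cons a v ih =>
    simp only [vAll, Bool.and_eq_true] at h
    cases k with
    | zero => simpa using h.1
    | succ k => simpa using ih h.2 k
end Vale.Agent.P266.CE.E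
end
section
namespace Vale.Agent.P266.CE
open E
structure Dat where
  F : E
  P0 : E
  P1 : E
  Q0 : E
  Q1 : E
  b0 : E
  b1 : E
  κ : Int
  μ : Int
  ν : Int
  u0 : E
  u1 : E
  v0 : E
  v1 : E
namespace Dat
variable (d : Dat)
def Rz : E := sub (pow (var 2) 2) d.F
def Rw : E := sub (pow (var 3) 2) (add d.b0 (mul d.b1 (var 2)))
def RP : E := sub (mul (var 4) (var 5)) (add d.P0 (mul d.P1 (var 2)))
def R1 : E := sub (pow (var 4) 3)
  (add (add d.Q0 (mul d.Q1 (var 2))) (mul (mul (const d.κ) (var 1)) (var 3)))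
def R2 : E := sub (pow (var 5) 3)
  (sub (add d.Q0 (mul d.Q1 (var 2))) (mul (mul (const d.κ) (var 1)) (var 3)))
structure Sat {K : Type*} [CommRing K] (ρ : ℕ → K) : Prop where
  z : d.Rz.ev ρ = 0
  w : d.Rw.ev ρ = 0
  P : d.RP.ev ρ = 0
  h1 : d.R1.ev ρ = 0
  h2 : d.R2.ev ρ = 0
def cf : List E → List (E × E)
  | [a, b, c, e, f] => [(a, d.Rz), (b, d.Rw), (c, d.RP), (e, d.R1), (f, d.R2)]
  | _ => []
theorem cf_zero {K : Type*} [CommRing K] {ρ : ℕ → K} (h : d.Sat ρ) (l : List E) :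
    ∀ p ∈ d.cf l, p.2.ev ρ = 0 := by
  intro p hp
  unfold cf at hp
  split at hp
  · simp only [List.mem_cons, List.not_mem_nil, or_false] at hp
    rcases hp with rfl | rfl | rfl | rfl | rfl
    · exact h.z
    · exact h.w
    · exact h.P
    · exact h.h1
    · exact h.h2
  · simp at hp
def Dn : E := mul (mul (const d.μ) (const d.ν)) (pow (var 1) 2)
def U : E := add d.u0 (mul d.u1 (var 2))
def V : E := add d.v0 (mul d.v1 (var 2))
def C : List E :=
  [d.Dn, mul d.Dn (var 2), mul d.Dn (var 3), mul d.Dn (mul (var 2) (var 3)),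
   mul d.Dn (var 4), mul (mul (const d.ν) (pow (var 1) 2)) (pow (var 5) 2),
   mul (mul (const d.ν) (var 1))
    (sub (mul (var 0) (pow (var 5) 2)) (mul (mul (const d.μ) d.U) (var 4))),
   mul (mul (const d.ν) (var 1))
    (sub (mul (var 2) (pow (var 5) 2)) (mul (mul (const d.μ) d.V) (var 4))),
   mul d.Dn (var 5), mul (mul (const d.ν) (pow (var 1) 2)) (pow (var 4) 2),
   mul (mul (const d.ν) (var 1))
    (sub (mul (var 0) (pow (var 4) 2)) (mul (mul (const d.μ) d.U) (var 5))),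
   mul (mul (const d.ν) (var 1))
    (sub (mul (var 2) (pow (var 4) 2)) (mul (mul (const d.μ) d.V) (var 5)))]
noncomputable def bas {K : Type*} [Field K] (ρ : ℕ → K) (k : ℕ) : K :=
  (d.C.getD k (const 0)).ev ρ / d.Dn.ev ρ
theorem bas_mul {K : Type*} [Field K] {ρ : ℕ → K} (h : d.Dn.ev ρ ≠ 0) (k : ℕ) :
    d.Dn.ev ρ * d.bas ρ (0 + k) = (d.C.getD k (const 0)).ev ρ := by
  rw [zero_add, bas, mul_div_cancel₀ _ h]
structure Mats where
  Mz : List (List E)
  Mw : List (List E)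
  M1 : List (List E)
  M2 : List (List E)
structure MatsOK (m : Mats) {K : Type*} [Field K] (ρ : ℕ → K) : Prop where
  z : IsMat ρ (d.bas ρ) (ρ 2) m.Mz 0
  w : IsMat ρ (d.bas ρ) (ρ 3) m.Mw 0
  h1 : IsMat ρ (d.bas ρ) (ρ 4) m.M1 0
  h2 : IsMat ρ (d.bas ρ) (ρ 5) m.M2 0
theorem isMat {K : Type*} [Field K] {ρ : ℕ → K} (hs : d.Sat ρ) (hD : d.Dn.ev ρ ≠ 0)
    (g : ℕ) (M : List (List E)) (L : List (List E)) (k : ℕ) (D : List ℕ)
    (h : rowsOK k D (var g) d.C d.C M (L.map d.cf) = true) :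
    IsMat ρ (d.bas ρ) (ρ g) M 0 := by
  refine isMat_of_rowsOK (g := var g) hD (fun j => ?_) h (fun j => ?_) ?_
  · exact d.bas_mul hD j
  · exact d.bas_mul hD j
  · intro l hl p hp
    obtain ⟨a, _, rfl⟩ := List.mem_map.1 hl
    exact d.cf_zero hs a p hp
theorem dv_two {R : Type*} [CommRing R] (ρ a : ℕ → R) (e : E) (h : e.vb 2 = true) :
    dv ρ a e = (pd 0 e).ev ρ * a 0 + (pd 1 e).ev ρ * a 1 := by
  induction e with
  | var i =>
    have h1 : i < 2 := by simpa [vb, Nat.blt] using h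
    rcases (by omega : i = 0 ∨ i = 1) with rfl | rfl
    · have e1 : Nat.beq 0 1 = false := rfl
      simp [dv, pd, E.d, ev, e1]
    · have e1 : Nat.beq 1 0 = false := rfl
      simp [dv, pd, E.d, ev, e1]
  | const c => simp [dv, pd, E.d, ev]
  | add e f he hf =>
    simp only [vb, Bool.and_eq_true] at h
    have e1 := he h.1
    have f1 := hf h.2
    simp only [pd, E.d, dv, ev] at *
    linear_combination e1 + f1
  | sub e f he hf =>
    simp only [vb, Bool.and_eq_true] at h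
    have e1 := he h.1
    have f1 := hf h.2
    simp only [pd, E.d, dv, ev] at *
    linear_combination e1 - f1
  | mul e f he hf =>
    simp only [vb, Bool.and_eq_true] at h
    have e1 := he h.1
    have f1 := hf h.2
    simp only [pd, E.d, dv, ev] at *
    linear_combination f.ev ρ * e1 + e.ev ρ * f1
  | pow e n he =>
    cases n with
    | zero => simp [dv, pd, E.d, ev]
    | succ n =>
      have hc : ((Int.ofNat (n + 1) : ℤ) : R) = (n : R) + 1 := by simp
      simp only [vb] at h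
      have e1 := he h
      simp only [pd, E.d, dv, ev, hc] at *
      push_cast
      linear_combination (n + 1 : R) * e.ev ρ ^ n * e1
def dS (X Y : List E) (e : E) : List E := vadd (vsmul (pd 0 e) X) (vsmul (pd 1 e) Y)
def dSz (m : Mats) (X Y Z : List E) (e0 e1 : E) : List E :=
  vadd (dS X Y e0) (vadd (app m.Mz (dS X Y e1)) (vsmul e1 Z))
def mz (m : Mats) (e0 e1 : E) (v : List E) : List E := vadd (vsmul e0 v) (vsmul e1 (app m.Mz v))
section ders
variable {d} {k : Type*} [CommRing k] {K : Type*} [Field K] [Algebra k K] {ρ : ℕ → K} {m : Mats}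
  {D : Derivation k K K} {X Y Z : List E}
theorem D_S (hX : D (ρ 0) = lin ρ (d.bas ρ) X 0) (hY : D (ρ 1) = lin ρ (d.bas ρ) Y 0)
    {e : E} (h : e.vb 2 = true) : D (e.ev ρ) = lin ρ (d.bas ρ) (dS X Y e) 0 := by
  rw [derivation_ev, dv_two _ _ _ h, dS, lin_vadd, lin_vsmul, lin_vsmul, hX, hY]
theorem D_Sz (hm : d.MatsOK m ρ) (hX : D (ρ 0) = lin ρ (d.bas ρ) X 0)
    (hY : D (ρ 1) = lin ρ (d.bas ρ) Y 0) (hZ : D (ρ 2) = lin ρ (d.bas ρ) Z 0)
    {e0 e1 : E} (h0 : e0.vb 2 = true) (h1 : e1.vb 2 = true) :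
    D (e0.ev ρ + e1.ev ρ * ρ 2) = lin ρ (d.bas ρ) (dSz m X Y Z e0 e1) 0 := by
  rw [map_add, Derivation.leibniz, D_S hX hY h0, D_S hX hY h1, dSz, lin_vadd, lin_vadd,
    lin_app hm.z, lin_vsmul, hZ]
  simp only [smul_eq_mul]
  ring
theorem lin_mz (hm : d.MatsOK m ρ) (e0 e1 : E) (v : List E) :
    lin ρ (d.bas ρ) (mz m e0 e1 v) 0 = (e0.ev ρ + e1.ev ρ * ρ 2) * lin ρ (d.bas ρ) v 0 := by
  rw [mz, lin_vadd, lin_vsmul, lin_vsmul, lin_app hm.z]
  ring
end ders
structure DD where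
  X : List E
  Y : List E
  Δ : List (List E)
structure KB where
  k : Nat
  D : List Nat
variable (m : Mats) (t : DD) (q : KB)
def DD.v (t : DD) (i : Nat) : List E := t.Δ.getD i []
def ck0 : Bool := and (and (allZ q.k q.D (t.v 0)) (Nat.beq t.Δ.length 12)) (and (d.F.vb 2) (and (d.b0.vb 2) (and (d.b1.vb 2)
  (and (d.P0.vb 2) (and (d.P1.vb 2) (and (d.Q0.vb 2) (and (d.Q1.vb 2) (and (d.u0.vb 2)
  (and (d.u1.vb 2) (and (d.v0.vb 2) (d.v1.vb 2)))))))))))
def ck1 : Bool := eqV q.k q.D (vsmul (const 2) (app m.Mz (t.v 1))) (dS t.X t.Y d.F)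
def ck2 : Bool := eqV q.k q.D (vsmul (const 2) (app m.Mw (t.v 2)))
  (dSz m t.X t.Y (t.v 1) d.b0 d.b1)
def ck3 : Bool := eqV q.k q.D (t.v 3) (vadd (app m.Mz (t.v 2)) (app m.Mw (t.v 1)))
def ck4 : Bool := eqV q.k q.D (vsmul (const 3) (app m.M1 (app m.M1 (t.v 4))))
  (vadd (dSz m t.X t.Y (t.v 1) d.Q0 d.Q1)
    (vsmul (const d.κ) (vadd (vsmul (var 1) (t.v 2)) (app m.Mw t.Y))))
def ck8 : Bool := eqV q.k q.D (vadd (app m.M1 (t.v 8)) (app m.M2 (t.v 4)))
  (dSz m t.X t.Y (t.v 1) d.P0 d.P1)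
def ck5 : Bool := eqV q.k q.D (vsmul (const d.μ) (t.v 5)) (vsmul (const 2) (app m.M2 (t.v 8)))
def ck9 : Bool := eqV q.k q.D (vsmul (const d.μ) (t.v 9)) (vsmul (const 2) (app m.M1 (t.v 4)))
def ckx (a a' : List (List E)) (i j l : Nat) : Bool := eqV q.k q.D
  (vsmul (mul (const d.μ) (pow (var 1) 2)) (t.v l))
  (vadd (vsmul (var 1) (vadd (vadd (app a (app a t.X)) (vsmul (mul (const d.μ) (var 0)) (t.v j)))
      (vneg (vsmul (const d.μ) (vadd (app a' (dSz m t.X t.Y (t.v 1) d.u0 d.u1))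
        (mz m d.u0 d.u1 (t.v i)))))))
    (vneg (vadd (vsmul (var 0) (app a (app a t.Y)))
      (vneg (vsmul (const d.μ) (mz m d.u0 d.u1 (app a' t.Y)))))))
def ckz (a a' : List (List E)) (i j l : Nat) : Bool := eqV q.k q.D
  (vsmul (mul (const d.μ) (pow (var 1) 2)) (t.v l))
  (vadd (vsmul (var 1) (vadd (vadd (app a (app a (t.v 1))) (vsmul (const d.μ) (app m.Mz (t.v j))))
      (vneg (vsmul (const d.μ) (vadd (app a' (dSz m t.X t.Y (t.v 1) d.v0 d.v1))
        (mz m d.v0 d.v1 (t.v i)))))))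
    (vneg (vadd (app m.Mz (app a (app a t.Y)))
      (vneg (vsmul (const d.μ) (mz m d.v0 d.v1 (app a' t.Y)))))))
structure DOK (q : ℕ → KB) : Prop where
  c0 : d.ck0 t (q 0) = true
  c1 : d.ck1 m t (q 1) = true
  c2 : d.ck2 m t (q 2) = true
  c3 : ck3 m t (q 3) = true
  c4 : d.ck4 m t (q 4) = true
  c5 : d.ck5 m t (q 5) = true
  c6 : d.ckx m t (q 6) m.M2 m.M1 4 5 6 = true
  c7 : d.ckz m t (q 7) m.M2 m.M1 4 5 7 = true
  c8 : d.ck8 m t (q 8) = true
  c9 : d.ck9 m t (q 9) = true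
  c10 : d.ckx m t (q 10) m.M1 m.M2 8 9 10 = true
  c11 : d.ckz m t (q 11) m.M1 m.M2 8 9 11 = true
theorem D_bas {k : Type*} [CommRing k] {K : Type*} [Field K] [CharZero K] [Algebra k K]
    {ρ : ℕ → K} {m : Mats} {t : DD} {q : ℕ → KB} (hs : d.Sat ρ) (hm : d.MatsOK m ρ)
    (hc : d.DOK m t q) (hμ : d.μ ≠ 0) (hν : d.ν ≠ 0) (hr : ρ 1 ≠ 0) (hz : ρ 2 ≠ 0) (hw : ρ 3 ≠ 0)
    (h1 : ρ 4 ≠ 0)
    (D : Derivation k K K) (hX : D (ρ 0) = lin ρ (d.bas ρ) t.X 0)
    (hY : D (ρ 1) = lin ρ (d.bas ρ) t.Y 0) (i : ℕ) :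
    D (d.bas ρ i) = lin ρ (d.bas ρ) (t.v i) 0 := by
  have hμ' : ((d.μ : ℤ) : K) ≠ 0 := by exact_mod_cast hμ
  have hν' : ((d.ν : ℤ) : K) ≠ 0 := by exact_mod_cast hν
  have hDn : d.Dn.ev ρ = (d.μ : K) * (d.ν : K) * ρ 1 ^ 2 := rfl
  have hDn0 : d.Dn.ev ρ ≠ 0 := by
    rw [hDn]; exact mul_ne_zero (mul_ne_zero hμ' hν') (pow_ne_zero _ hr)
  have B : ∀ k, d.Dn.ev ρ * d.bas ρ k = (d.C.getD k (const 0)).ev ρ := fun k => by
    have := d.bas_mul hDn0 k
    rwa [zero_add] at this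
  have b0 : d.bas ρ 0 = 1 := by
    apply mul_left_cancel₀ hDn0; rw [B 0]; simp [C]
  have b1 : d.bas ρ 1 = ρ 2 := by
    apply mul_left_cancel₀ hDn0; rw [B 1]; simp [C, ev]
  have b2 : d.bas ρ 2 = ρ 3 := by
    apply mul_left_cancel₀ hDn0; rw [B 2]; simp [C, ev]
  have b3 : d.bas ρ 3 = ρ 2 * ρ 3 := by
    apply mul_left_cancel₀ hDn0; rw [B 3]; simp [C, ev]
  have b4 : d.bas ρ 4 = ρ 4 := by
    apply mul_left_cancel₀ hDn0; rw [B 4]; simp [C, ev]
  have b8 : d.bas ρ 8 = ρ 5 := by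
    apply mul_left_cancel₀ hDn0; rw [B 8]; simp [C, ev]
  have b5 : (d.μ : K) * d.bas ρ 5 = ρ 5 ^ 2 := by
    have h := B 5
    simp only [C, List.getD_cons_succ, List.getD_cons_zero, ev, hDn] at h
    apply mul_left_cancel₀ (mul_ne_zero hν' (pow_ne_zero 2 hr))
    linear_combination h
  have b9 : (d.μ : K) * d.bas ρ 9 = ρ 4 ^ 2 := by
    have h := B 9
    simp only [C, List.getD_cons_succ, List.getD_cons_zero, ev, hDn] at h
    apply mul_left_cancel₀ (mul_ne_zero hν' (pow_ne_zero 2 hr))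
    linear_combination h
  have b6 : ρ 1 * d.bas ρ 6 = ρ 0 * d.bas ρ 5 - (d.u0.ev ρ + d.u1.ev ρ * ρ 2) * ρ 4 := by
    have h := B 6
    simp only [C, U, List.getD_cons_succ, List.getD_cons_zero, ev, hDn] at h
    apply mul_left_cancel₀ hμ'
    apply mul_left_cancel₀ (mul_ne_zero hν' hr)
    linear_combination h - (d.ν : K) * ρ 1 * ρ 0 * b5
  have b7 : ρ 1 * d.bas ρ 7 = ρ 2 * d.bas ρ 5 - (d.v0.ev ρ + d.v1.ev ρ * ρ 2) * ρ 4 := by
    have h := B 7
    simp only [C, V, List.getD_cons_succ, List.getD_cons_zero, ev, hDn] at h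
    apply mul_left_cancel₀ hμ'
    apply mul_left_cancel₀ (mul_ne_zero hν' hr)
    linear_combination h - (d.ν : K) * ρ 1 * ρ 2 * b5
  have b10 : ρ 1 * d.bas ρ 10 = ρ 0 * d.bas ρ 9 - (d.u0.ev ρ + d.u1.ev ρ * ρ 2) * ρ 5 := by
    have h := B 10
    simp only [C, U, List.getD_cons_succ, List.getD_cons_zero, ev, hDn] at h
    apply mul_left_cancel₀ hμ'
    apply mul_left_cancel₀ (mul_ne_zero hν' hr)
    linear_combination h - (d.ν : K) * ρ 1 * ρ 0 * b9
  have b11 : ρ 1 * d.bas ρ 11 = ρ 2 * d.bas ρ 9 - (d.v0.ev ρ + d.v1.ev ρ * ρ 2) * ρ 5 := by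
    have h := B 11
    simp only [C, V, List.getD_cons_succ, List.getD_cons_zero, ev, hDn] at h
    apply mul_left_cancel₀ hμ'
    apply mul_left_cancel₀ (mul_ne_zero hν' hr)
    linear_combination h - (d.ν : K) * ρ 1 * ρ 2 * b9
  have c0 := hc.c0
  simp only [ck0, Bool.and_eq_true] at c0
  obtain ⟨⟨c00, c01⟩, vF, vb0, vb1, vP0, vP1, vQ0, vQ1, vu0, vu1, vv0, vv1⟩ := c0
  have rz : ρ 2 ^ 2 = d.F.ev ρ := sub_eq_zero.1 hs.z
  have rw' : ρ 3 ^ 2 = d.b0.ev ρ + d.b1.ev ρ * ρ 2 := sub_eq_zero.1 hs.w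
  have rP : ρ 4 * ρ 5 = d.P0.ev ρ + d.P1.ev ρ * ρ 2 := sub_eq_zero.1 hs.P
  have r1 : ρ 4 ^ 3 = d.Q0.ev ρ + d.Q1.ev ρ * ρ 2 + (d.κ : K) * ρ 1 * ρ 3 := sub_eq_zero.1 hs.h1
  have Dz : D (ρ 2) = lin ρ (d.bas ρ) (t.v 1) 0 := by
    have e1 := lin_eq_of_eqV hc.c1 ρ (d.bas ρ) 0
    rw [lin_vsmul, lin_app hm.z, ← D_S hX hY vF, ← rz, D.leibniz_pow] at e1
    simp only [ev, smul_eq_mul, nsmul_eq_mul] at e1
    apply mul_left_cancel₀ hz
    push_cast at e1
    linear_combination (-1 / 2 : K) * e1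
  have Dw : D (ρ 3) = lin ρ (d.bas ρ) (t.v 2) 0 := by
    have e1 := lin_eq_of_eqV hc.c2 ρ (d.bas ρ) 0
    rw [lin_vsmul, lin_app hm.w, ← D_Sz hm hX hY Dz vb0 vb1, ← rw', D.leibniz_pow] at e1
    simp only [ev, smul_eq_mul, nsmul_eq_mul] at e1
    apply mul_left_cancel₀ hw
    push_cast at e1
    linear_combination (-1 / 2 : K) * e1
  have Dzw : D (ρ 2 * ρ 3) = lin ρ (d.bas ρ) (t.v 3) 0 := by
    have e1 := lin_eq_of_eqV hc.c3 ρ (d.bas ρ) 0
    rw [lin_vadd, lin_app hm.w, lin_app hm.z] at e1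
    rw [e1, D.leibniz, Dz, Dw]
    simp only [smul_eq_mul]
  have D4 : D (ρ 4) = lin ρ (d.bas ρ) (t.v 4) 0 := by
    have e1 := lin_eq_of_eqV hc.c4 ρ (d.bas ρ) 0
    have e2 := congrArg D r1
    rw [map_add, D_Sz hm hX hY Dz vQ0 vQ1, D.leibniz_pow, D.leibniz, D.leibniz, Dw, hY,
      show ((d.κ : ℤ) : K) = algebraMap k K (d.κ : k) by simp, D.map_algebraMap] at e2
    rw [lin_vsmul, lin_app hm.h1, lin_app hm.h1, lin_vadd, lin_vsmul, lin_vadd, lin_vsmul,
      lin_app hm.w] at e1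
    simp only [ev, smul_eq_mul, nsmul_eq_mul] at e1 e2
    rw [show algebraMap k K (d.κ : k) = ((d.κ : ℤ) : K) by simp] at e2
    apply mul_left_cancel₀ (pow_ne_zero 2 h1)
    push_cast at e1 e2
    linear_combination (1 / 3 : K) * e2 - (1 / 3 : K) * e1
  have D8 : D (ρ 5) = lin ρ (d.bas ρ) (t.v 8) 0 := by
    have e1 := lin_eq_of_eqV hc.c8 ρ (d.bas ρ) 0
    rw [lin_vadd, lin_app hm.h1, lin_app hm.h2, ← D_Sz hm hX hY Dz vP0 vP1, ← rP, D.leibniz,
      ← D4] at e1
    simp only [smul_eq_mul] at e1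
    apply mul_left_cancel₀ h1
    linear_combination -e1
  have D5 : D (d.bas ρ 5) = lin ρ (d.bas ρ) (t.v 5) 0 := by
    have e1 := lin_eq_of_eqV hc.c5 ρ (d.bas ρ) 0
    have e2 := congrArg D b5
    rw [D.leibniz, D.leibniz_pow,
      show ((d.μ : ℤ) : K) = algebraMap k K (d.μ : k) by simp, D.map_algebraMap,
      show algebraMap k K (d.μ : k) = ((d.μ : ℤ) : K) by simp] at e2
    rw [lin_vsmul, lin_vsmul, lin_app hm.h2, ← D8] at e1
    simp only [ev, smul_eq_mul, nsmul_eq_mul] at e1 e2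
    apply mul_left_cancel₀ hμ'
    push_cast at e1 e2
    linear_combination e2 - e1
  have D9 : D (d.bas ρ 9) = lin ρ (d.bas ρ) (t.v 9) 0 := by
    have e1 := lin_eq_of_eqV hc.c9 ρ (d.bas ρ) 0
    have e2 := congrArg D b9
    rw [D.leibniz, D.leibniz_pow,
      show ((d.μ : ℤ) : K) = algebraMap k K (d.μ : k) by simp, D.map_algebraMap,
      show algebraMap k K (d.μ : k) = ((d.μ : ℤ) : K) by simp] at e2
    rw [lin_vsmul, lin_vsmul, lin_app hm.h1, ← D4] at e1
    simp only [ev, smul_eq_mul, nsmul_eq_mul] at e1 e2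
    apply mul_left_cancel₀ hμ'
    push_cast at e1 e2
    linear_combination e2 - e1
  have hμr : (d.μ : K) * ρ 1 ^ 2 ≠ 0 := mul_ne_zero hμ' (pow_ne_zero _ hr)
  have DU := D_Sz hm hX hY Dz vu0 vu1
  have DV := D_Sz hm hX hY Dz vv0 vv1
  have D6 : D (d.bas ρ 6) = lin ρ (d.bas ρ) (t.v 6) 0 := by
    have e1 := lin_eq_of_eqV hc.c6 ρ (d.bas ρ) 0
    have e2 := congrArg D b6
    rw [map_sub, D.leibniz, D.leibniz, D.leibniz, DU, D5, D4, hX, hY] at e2
    simp only [lin_vadd, lin_vneg, lin_vsmul, lin_mz hm, lin_app hm.h1, lin_app hm.h2,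
      ev] at e1
    simp only [smul_eq_mul] at e2
    apply mul_left_cancel₀ hμr
    linear_combination (d.μ : K) * ρ 1 * e2 - e1 - (d.μ : K) * lin ρ (d.bas ρ) t.Y 0 * b6 +
      (ρ 1 * lin ρ (d.bas ρ) t.X 0 - ρ 0 * lin ρ (d.bas ρ) t.Y 0) * b5
  have D7 : D (d.bas ρ 7) = lin ρ (d.bas ρ) (t.v 7) 0 := by
    have e1 := lin_eq_of_eqV hc.c7 ρ (d.bas ρ) 0
    have e2 := congrArg D b7
    rw [map_sub, D.leibniz, D.leibniz, D.leibniz, DV, D5, D4, Dz, hY] at e2
    simp only [lin_vadd, lin_vneg, lin_vsmul, lin_mz hm, lin_app hm.h1, lin_app hm.h2,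
      lin_app hm.z, ev] at e1
    simp only [smul_eq_mul] at e2
    apply mul_left_cancel₀ hμr
    linear_combination (d.μ : K) * ρ 1 * e2 - e1 - (d.μ : K) * lin ρ (d.bas ρ) t.Y 0 * b7 +
      (ρ 1 * lin ρ (d.bas ρ) (t.v 1) 0 - ρ 2 * lin ρ (d.bas ρ) t.Y 0) * b5
  have D10 : D (d.bas ρ 10) = lin ρ (d.bas ρ) (t.v 10) 0 := by
    have e1 := lin_eq_of_eqV hc.c10 ρ (d.bas ρ) 0
    have e2 := congrArg D b10
    rw [map_sub, D.leibniz, D.leibniz, D.leibniz, DU, D9, D8, hX, hY] at e2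
    simp only [lin_vadd, lin_vneg, lin_vsmul, lin_mz hm, lin_app hm.h1, lin_app hm.h2,
      ev] at e1
    simp only [smul_eq_mul] at e2
    apply mul_left_cancel₀ hμr
    linear_combination (d.μ : K) * ρ 1 * e2 - e1 - (d.μ : K) * lin ρ (d.bas ρ) t.Y 0 * b10 +
      (ρ 1 * lin ρ (d.bas ρ) t.X 0 - ρ 0 * lin ρ (d.bas ρ) t.Y 0) * b9
  have D11 : D (d.bas ρ 11) = lin ρ (d.bas ρ) (t.v 11) 0 := by
    have e1 := lin_eq_of_eqV hc.c11 ρ (d.bas ρ) 0
    have e2 := congrArg D b11
    rw [map_sub, D.leibniz, D.leibniz, D.leibniz, DV, D9, D8, Dz, hY] at e2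
    simp only [lin_vadd, lin_vneg, lin_vsmul, lin_mz hm, lin_app hm.h1, lin_app hm.h2,
      lin_app hm.z, ev] at e1
    simp only [smul_eq_mul] at e2
    apply mul_left_cancel₀ hμr
    linear_combination (d.μ : K) * ρ 1 * e2 - e1 - (d.μ : K) * lin ρ (d.bas ρ) t.Y 0 * b11 +
      (ρ 1 * lin ρ (d.bas ρ) (t.v 1) 0 - ρ 2 * lin ρ (d.bas ρ) t.Y 0) * b9
  match i with
  | 0 => rw [b0, D.map_one_eq_zero, lin_of_allZ c00]
  | 1 => rw [b1, Dz]
  | 2 => rw [b2, Dw]
  | 3 => rw [b3, Dzw]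
  | 4 => rw [b4, D4]
  | 5 => exact D5
  | 6 => exact D6
  | 7 => exact D7
  | 8 => rw [b8, D8]
  | 9 => exact D9
  | 10 => exact D10
  | 11 => exact D11
  | n + 12 =>
    have e1 : d.bas ρ (n + 12) = 0 := by
      apply mul_left_cancel₀ hDn0
      rw [B (n + 12)]
      simp [C, ev]
    have e2 : t.v (n + 12) = [] := by
      have h12 : t.Δ.length = 12 := Nat.eq_of_beq_eq_true c01
      unfold DD.v
      rw [List.getD_eq_getElem?_getD, List.getElem?_eq_none (by omega)]
      rfl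
    rw [e1, map_zero, e2]
    rfl
end Dat
end Vale.Agent.P266.CE
end
section
namespace Vale.Agent.P266.CE.Dat
open E
variable (d : Dat)
structure BasFacts {K : Type*} [Field K] (ρ : ℕ → K) : Prop where
  b0 : d.bas ρ 0 = 1
  b1 : d.bas ρ 1 = ρ 2
  b2 : d.bas ρ 2 = ρ 3
  b3 : d.bas ρ 3 = ρ 2 * ρ 3
  b4 : d.bas ρ 4 = ρ 4
  b5 : (d.μ : K) * d.bas ρ 5 = ρ 5 ^ 2
  b6 : ρ 1 * d.bas ρ 6 = ρ 0 * d.bas ρ 5 - (d.u0.ev ρ + d.u1.ev ρ * ρ 2) * ρ 4
  b7 : ρ 1 * d.bas ρ 7 = ρ 2 * d.bas ρ 5 - (d.v0.ev ρ + d.v1.ev ρ * ρ 2) * ρ 4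
  b8 : d.bas ρ 8 = ρ 5
  b9 : (d.μ : K) * d.bas ρ 9 = ρ 4 ^ 2
  b10 : ρ 1 * d.bas ρ 10 = ρ 0 * d.bas ρ 9 - (d.u0.ev ρ + d.u1.ev ρ * ρ 2) * ρ 5
  b11 : ρ 1 * d.bas ρ 11 = ρ 2 * d.bas ρ 9 - (d.v0.ev ρ + d.v1.ev ρ * ρ 2) * ρ 5
theorem basFacts {K : Type*} [Field K] [CharZero K] {ρ : ℕ → K} (hμ : d.μ ≠ 0) (hν : d.ν ≠ 0)
    (hr : ρ 1 ≠ 0) : d.BasFacts ρ := by
  have hμ' : ((d.μ : ℤ) : K) ≠ 0 := by exact_mod_cast hμ
  have hν' : ((d.ν : ℤ) : K) ≠ 0 := by exact_mod_cast hν
  have hDn : d.Dn.ev ρ = (d.μ : K) * (d.ν : K) * ρ 1 ^ 2 := rfl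
  have hDn0 : d.Dn.ev ρ ≠ 0 := by
    rw [hDn]; exact mul_ne_zero (mul_ne_zero hμ' hν') (pow_ne_zero _ hr)
  have B : ∀ k, d.Dn.ev ρ * d.bas ρ k = (d.C.getD k (const 0)).ev ρ := fun k => by
    have := d.bas_mul hDn0 k
    rwa [zero_add] at this
  have b5 : (d.μ : K) * d.bas ρ 5 = ρ 5 ^ 2 := by
    have h := B 5
    simp only [C, List.getD_cons_succ, List.getD_cons_zero, ev, hDn] at h
    apply mul_left_cancel₀ (mul_ne_zero hν' (pow_ne_zero 2 hr))
    linear_combination h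
  have b9 : (d.μ : K) * d.bas ρ 9 = ρ 4 ^ 2 := by
    have h := B 9
    simp only [C, List.getD_cons_succ, List.getD_cons_zero, ev, hDn] at h
    apply mul_left_cancel₀ (mul_ne_zero hν' (pow_ne_zero 2 hr))
    linear_combination h
  refine ⟨?_, ?_, ?_, ?_, ?_, b5, ?_, ?_, ?_, b9, ?_, ?_⟩
  · apply mul_left_cancel₀ hDn0; rw [B 0]; simp [C]
  · apply mul_left_cancel₀ hDn0; rw [B 1]; simp [C, ev]
  · apply mul_left_cancel₀ hDn0; rw [B 2]; simp [C, ev]
  · apply mul_left_cancel₀ hDn0; rw [B 3]; simp [C, ev]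
  · apply mul_left_cancel₀ hDn0; rw [B 4]; simp [C, ev]
  · have h := B 6
    simp only [C, U, List.getD_cons_succ, List.getD_cons_zero, ev, hDn] at h
    apply mul_left_cancel₀ hμ'
    apply mul_left_cancel₀ (mul_ne_zero hν' hr)
    linear_combination h - (d.ν : K) * ρ 1 * ρ 0 * b5
  · have h := B 7
    simp only [C, V, List.getD_cons_succ, List.getD_cons_zero, ev, hDn] at h
    apply mul_left_cancel₀ hμ'
    apply mul_left_cancel₀ (mul_ne_zero hν' hr)
    linear_combination h - (d.ν : K) * ρ 1 * ρ 2 * b5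
  · apply mul_left_cancel₀ hDn0; rw [B 8]; simp [C, ev]
  · have h := B 10
    simp only [C, U, List.getD_cons_succ, List.getD_cons_zero, ev, hDn] at h
    apply mul_left_cancel₀ hμ'
    apply mul_left_cancel₀ (mul_ne_zero hν' hr)
    linear_combination h - (d.ν : K) * ρ 1 * ρ 0 * b9
  · have h := B 11
    simp only [C, V, List.getD_cons_succ, List.getD_cons_zero, ev, hDn] at h
    apply mul_left_cancel₀ hμ'
    apply mul_left_cancel₀ (mul_ne_zero hν' hr)
    linear_combination h - (d.ν : K) * ρ 1 * ρ 2 * b9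
variable (m : Mats)
def opg (a : List (List E)) (v : List E) : List E := app a (app a v)
def opx (a a' : List (List E)) (v : List E) : List E :=
  vadd (vsmul (var 0) (app a (app a v))) (vneg (vsmul (const d.μ) (mz m d.u0 d.u1 (app a' v))))
def opz (a a' : List (List E)) (v : List E) : List E :=
  vadd (app m.Mz (app a (app a v))) (vneg (vsmul (const d.μ) (mz m d.v0 d.v1 (app a' v))))
section
variable {d m} {K : Type*} [Field K] {ρ : ℕ → K}
theorem lin_opg1 (hm : d.MatsOK m ρ) (hb : d.BasFacts ρ) (v : List E) :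
    lin ρ (d.bas ρ) (opg m.M2 v) 0 = ((d.μ : K) * d.bas ρ 5) * lin ρ (d.bas ρ) v 0 := by
  rw [opg, lin_app hm.h2, lin_app hm.h2, hb.b5]; ring
theorem lin_opg2 (hm : d.MatsOK m ρ) (hb : d.BasFacts ρ) (v : List E) :
    lin ρ (d.bas ρ) (opg m.M1 v) 0 = ((d.μ : K) * d.bas ρ 9) * lin ρ (d.bas ρ) v 0 := by
  rw [opg, lin_app hm.h1, lin_app hm.h1, hb.b9]; ring
theorem lin_opx1 (hm : d.MatsOK m ρ) (hb : d.BasFacts ρ) (v : List E) :
    lin ρ (d.bas ρ) (d.opx m m.M2 m.M1 v) 0 =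
      ((d.μ : K) * ρ 1 * d.bas ρ 6) * lin ρ (d.bas ρ) v 0 := by
  rw [opx, lin_vadd, lin_vneg, lin_vsmul, lin_vsmul, lin_mz hm, lin_app hm.h1, lin_app hm.h2,
    lin_app hm.h2]
  simp only [ev]
  linear_combination (-(d.μ : K) * lin ρ (d.bas ρ) v 0) * hb.b6 -
    ρ 0 * lin ρ (d.bas ρ) v 0 * hb.b5
theorem lin_opx2 (hm : d.MatsOK m ρ) (hb : d.BasFacts ρ) (v : List E) :
    lin ρ (d.bas ρ) (d.opx m m.M1 m.M2 v) 0 =
      ((d.μ : K) * ρ 1 * d.bas ρ 10) * lin ρ (d.bas ρ) v 0 := by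
  rw [opx, lin_vadd, lin_vneg, lin_vsmul, lin_vsmul, lin_mz hm, lin_app hm.h1, lin_app hm.h2,
    lin_app hm.h1]
  simp only [ev]
  linear_combination (-(d.μ : K) * lin ρ (d.bas ρ) v 0) * hb.b10 -
    ρ 0 * lin ρ (d.bas ρ) v 0 * hb.b9
theorem lin_opz1 (hm : d.MatsOK m ρ) (hb : d.BasFacts ρ) (v : List E) :
    lin ρ (d.bas ρ) (d.opz m m.M2 m.M1 v) 0 =
      ((d.μ : K) * ρ 1 * d.bas ρ 7) * lin ρ (d.bas ρ) v 0 := by
  rw [opz, lin_vadd, lin_vneg, lin_vsmul, lin_mz hm, lin_app hm.z, lin_app hm.h1,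
    lin_app hm.h2, lin_app hm.h2]
  simp only [ev]
  linear_combination (-(d.μ : K) * lin ρ (d.bas ρ) v 0) * hb.b7 -
    ρ 2 * lin ρ (d.bas ρ) v 0 * hb.b5
theorem lin_opz2 (hm : d.MatsOK m ρ) (hb : d.BasFacts ρ) (v : List E) :
    lin ρ (d.bas ρ) (d.opz m m.M1 m.M2 v) 0 =
      ((d.μ : K) * ρ 1 * d.bas ρ 11) * lin ρ (d.bas ρ) v 0 := by
  rw [opz, lin_vadd, lin_vneg, lin_vsmul, lin_mz hm, lin_app hm.z, lin_app hm.h2,
    lin_app hm.h1, lin_app hm.h1]
  simp only [ev]
  linear_combination (-(d.μ : K) * lin ρ (d.bas ρ) v 0) * hb.b11 -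
    ρ 2 * lin ρ (d.bas ρ) v 0 * hb.b9
def cub (q : KB) (op : List E → List E) (s : E) (V : List E) : Bool :=
  eqV q.k q.D (vsmul (pow s 3) V) (op (op (op [const 1])))
theorem cube_of_cub {q : KB} {op : List E → List E} {s : E} {V : List E} {b : K}
    (hb : d.BasFacts ρ)
    (hop : ∀ v, lin ρ (d.bas ρ) (op v) 0 = (s.ev ρ * b) * lin ρ (d.bas ρ) v 0)
    (hs : s.ev ρ ≠ 0) (h : cub q op s V = true) : b ^ 3 = lin ρ (d.bas ρ) V 0 := by
  have e := lin_eq_of_eqV h ρ (d.bas ρ) 0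
  rw [lin_vsmul, hop, hop, hop] at e
  simp only [lin, ev, hb.b0, Int.cast_one, mul_one, add_zero] at e
  apply mul_left_cancel₀ (pow_ne_zero 3 hs)
  rw [e]; ring
end
def swp {K : Type*} [Neg K] (ρ : ℕ → K) : ℕ → K
  | 3 => - ρ 3
  | 4 => ρ 5
  | 5 => ρ 4
  | n => ρ n
theorem ev_swp {K : Type*} [CommRing K] (ρ : ℕ → K) (e : E) (h : e.vb 2 = true) :
    e.ev (swp ρ) = e.ev ρ := by
  induction e with
  | var i =>
    have h1 : i < 2 := by simpa [vb, Nat.blt] using h
    rcases (by omega : i = 0 ∨ i = 1) with rfl | rfl <;> rfl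
  | const c => rfl
  | add a b ha hb =>
    simp only [vb, Bool.and_eq_true] at h
    simp only [ev, ha h.1, hb h.2]
  | sub a b ha hb =>
    simp only [vb, Bool.and_eq_true] at h
    simp only [ev, ha h.1, hb h.2]
  | mul a b ha hb =>
    simp only [vb, Bool.and_eq_true] at h
    simp only [ev, ha h.1, hb h.2]
  | pow a n ha =>
    simp only [vb] at h
    simp only [ev, ha h]
def vbs : Bool := and (d.F.vb 2) (and (d.b0.vb 2) (and (d.b1.vb 2)
  (and (d.P0.vb 2) (and (d.P1.vb 2) (and (d.Q0.vb 2) (and (d.Q1.vb 2) (and (d.u0.vb 2)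
  (and (d.u1.vb 2) (and (d.v0.vb 2) (d.v1.vb 2))))))))))
variable {d}
theorem sat_swp {K : Type*} [CommRing K] {ρ : ℕ → K} (hv : d.vbs = true) (h : d.Sat ρ) :
    d.Sat (swp ρ) := by
  simp only [vbs, Bool.and_eq_true] at hv
  obtain ⟨vF, vb0, vb1, vP0, vP1, vQ0, vQ1, vu0, vu1, vv0, vv1⟩ := hv
  have hz := h.z
  have hw := h.w
  have hP := h.P
  have h1 := h.h1
  have h2 := h.h2
  simp only [Rz, Rw, RP, R1, R2, ev] at hz hw hP h1 h2
  refine ⟨?_, ?_, ?_, ?_, ?_⟩ <;>
    simp only [Rz, Rw, RP, R1, R2, ev, ev_swp ρ _ vF, ev_swp ρ _ vb0, ev_swp ρ _ vb1,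
      ev_swp ρ _ vP0, ev_swp ρ _ vP1, ev_swp ρ _ vQ0, ev_swp ρ _ vQ1, swp]
  · exact hz
  · linear_combination hw
  · linear_combination hP
  · linear_combination h2
  · linear_combination h1
theorem bas_swp {K : Type*} [Field K] [CharZero K] {ρ : ℕ → K} (hv : d.vbs = true)
    (hμ : d.μ ≠ 0) (hν : d.ν ≠ 0) (hr : ρ 1 ≠ 0) :
    d.bas (swp ρ) 0 = d.bas ρ 0 ∧ d.bas (swp ρ) 1 = d.bas ρ 1 ∧
    d.bas (swp ρ) 2 = - d.bas ρ 2 ∧ d.bas (swp ρ) 3 = - d.bas ρ 3 ∧
    d.bas (swp ρ) 4 = d.bas ρ 8 ∧ d.bas (swp ρ) 5 = d.bas ρ 9 ∧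
    d.bas (swp ρ) 6 = d.bas ρ 10 ∧ d.bas (swp ρ) 7 = d.bas ρ 11 ∧
    d.bas (swp ρ) 8 = d.bas ρ 4 ∧ d.bas (swp ρ) 9 = d.bas ρ 5 ∧
    d.bas (swp ρ) 10 = d.bas ρ 6 ∧ d.bas (swp ρ) 11 = d.bas ρ 7 := by
  have hμ' : ((d.μ : ℤ) : K) ≠ 0 := by exact_mod_cast hμ
  have B := d.basFacts hμ hν hr
  have hr' : swp ρ 1 ≠ 0 := hr
  have B' := d.basFacts hμ hν hr'
  simp only [vbs, Bool.and_eq_true] at hv
  obtain ⟨vF, vb0, vb1, vP0, vP1, vQ0, vQ1, vu0, vu1, vv0, vv1⟩ := hv
  have B5 : d.bas (swp ρ) 5 = d.bas ρ 9 := by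
    apply mul_left_cancel₀ hμ'
    rw [B'.b5, B.b9]; rfl
  have B9 : d.bas (swp ρ) 9 = d.bas ρ 5 := by
    apply mul_left_cancel₀ hμ'
    rw [B'.b9, B.b5]; rfl
  have c6 := B'.b6
  have c7 := B'.b7
  have c10 := B'.b10
  have c11 := B'.b11
  rw [ev_swp ρ _ vu0, ev_swp ρ _ vu1] at c6 c10
  rw [ev_swp ρ _ vv0, ev_swp ρ _ vv1] at c7 c11
  rw [B5] at c6 c7
  rw [B9] at c10 c11
  refine ⟨by rw [B'.b0, B.b0], ?_, ?_, ?_, ?_, B5, ?_, ?_, ?_, B9, ?_, ?_⟩
  · rw [B'.b1, B.b1]; rfl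
  · rw [B'.b2, B.b2]; rfl
  · rw [B'.b3, B.b3]
    change ρ 2 * (- ρ 3) = _
    ring
  · rw [B'.b4, B.b8]; rfl
  · apply mul_left_cancel₀ hr
    rw [B.b10]; exact c6
  · apply mul_left_cancel₀ hr
    rw [B.b11]; exact c7
  · rw [B'.b8, B.b4]; rfl
  · apply mul_left_cancel₀ hr
    rw [B.b6]; exact c10
  · apply mul_left_cancel₀ hr
    rw [B.b7]; exact c11
def swv (v : List E) : List E :=
  vadd [v.getD 0 (const 0), v.getD 1 (const 0)]
    (vadd (vneg [const 0, const 0, v.getD 2 (const 0), v.getD 3 (const 0)])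
      [const 0, const 0, const 0, const 0,
        v.getD 8 (const 0), v.getD 9 (const 0), v.getD 10 (const 0), v.getD 11 (const 0),
        v.getD 4 (const 0), v.getD 5 (const 0), v.getD 6 (const 0), v.getD 7 (const 0)])
theorem lin_swv {K : Type*} [Field K] [CharZero K] {ρ : ℕ → K} (hv : d.vbs = true)
    (hμ : d.μ ≠ 0) (hν : d.ν ≠ 0) (hr : ρ 1 ≠ 0) {v : List E} (hl : v.length ≤ 12)
    (hvA : vAll v = true) :
    lin (swp ρ) (d.bas (swp ρ)) v 0 = lin ρ (d.bas ρ) (swv v) 0 := by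
  obtain ⟨h0, h1, h2, h3, h4, h5, h6, h7, h8, h9, h10, h11⟩ := bas_swp hv hμ hν hr
  rw [lin_eq_sum _ _ v 12 0 hl]
  simp only [Finset.sum_range_succ, Finset.sum_range_zero, zero_add,
    ev_swp ρ _ (vb_getD hvA _), h0, h1, h2, h3, h4, h5, h6, h7, h8, h9, h10, h11]
  simp only [swv, lin_vadd, lin_vneg, lin, ev, Int.cast_zero, zero_mul, zero_add, add_zero,
    Nat.reduceAdd]
  ring
def opN (d : Dat) (m : Mats) (a4 a5 a6 a7 : E) (v : List E) : List E :=
  vadd (vsmul (mul (mul (const d.μ) (var 1)) a4) (app m.M1 v))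
    (vadd (vsmul (mul (var 1) a5) (opg m.M2 v))
      (vadd (vsmul a6 (d.opx m m.M2 m.M1 v)) (vsmul a7 (d.opz m m.M2 m.M1 v))))
def nv (a4 a5 a6 a7 : E) : List E := [const 0, const 0, const 0, const 0, a4, a5, a6, a7]
theorem lin_opN {K : Type*} [Field K] {ρ : ℕ → K} {m : Mats} (hm : d.MatsOK m ρ)
    (hb : d.BasFacts ρ) (a4 a5 a6 a7 : E) (v : List E) :
    lin ρ (d.bas ρ) (opN d m a4 a5 a6 a7 v) 0 =
      ((d.μ : K) * ρ 1) * lin ρ (d.bas ρ) (nv a4 a5 a6 a7) 0 * lin ρ (d.bas ρ) v 0 := by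
  simp only [opN, lin_vadd, lin_vsmul, lin_app hm.h1, lin_opg1 hm hb, lin_opx1 hm hb,
    lin_opz1 hm hb, nv, lin, ev, Int.cast_zero, zero_mul, zero_add, add_zero, Nat.reduceAdd,
    hb.b4]
  ring
def ckw (d : Dat) (m : Mats) (q : KB) (U0 U1F : E) (x4 x5 x6 x7 y4 y5 y6 y7 : E) : Bool :=
  eqV q.k q.D (vsmul (mul (const d.μ) (var 1)) [const 0, const 0, U1F, U0])
    (vadd (opN d m x4 x5 x6 x7 (swv (nv y4 y5 y6 y7)))
      (vneg (opN d m y4 y5 y6 y7 (swv (nv x4 x5 x6 x7)))))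
theorem wedge_of_ckw {K : Type*} [Field K] [CharZero K] {ρ : ℕ → K} {m : Mats}
    (hm : d.MatsOK m ρ) (hb : d.BasFacts ρ) (hμ : d.μ ≠ 0) (hr : ρ 1 ≠ 0) {q : KB}
    {U0 U1F x4 x5 x6 x7 y4 y5 y6 y7 : E}
    (h : ckw d m q U0 U1F x4 x5 x6 x7 y4 y5 y6 y7 = true) :
    lin ρ (d.bas ρ) (nv x4 x5 x6 x7) 0 * lin ρ (d.bas ρ) (swv (nv y4 y5 y6 y7)) 0 -
      lin ρ (d.bas ρ) (nv y4 y5 y6 y7) 0 * lin ρ (d.bas ρ) (swv (nv x4 x5 x6 x7)) 0 =
      U1F.ev ρ * ρ 3 + U0.ev ρ * (ρ 2 * ρ 3) := by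
  have hμ' : ((d.μ : ℤ) : K) ≠ 0 := by exact_mod_cast hμ
  have e := lin_eq_of_eqV h ρ (d.bas ρ) 0
  rw [lin_vsmul, lin_vadd, lin_vneg, lin_opN hm hb, lin_opN hm hb] at e
  simp only [lin, ev, Int.cast_zero, zero_mul, zero_add, add_zero, Nat.reduceAdd,
    hb.b2, hb.b3] at e
  apply mul_left_cancel₀ (mul_ne_zero hμ' hr)
  linear_combination -e
end Vale.Agent.P266.CE.Dat
end
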