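import Mathlib
section
namespace Vale.Agent.P266
open Polynomial
theorem deriv_iterate_pow_mul {S : Type*} [CommRing S] (D : S → S)
    (hadd : ∀ a b, D (a + b) = D a + D b) (hmul : ∀ a b, D (a * b) = a * D b + b * D a) (u : S) :
    ∀ (m n : ℕ) (y : S), m ≤ n → ∃ w, D^[m] (u ^ n * y) =
      (n.descFactorial m : S) * u ^ (n - m) * (D u) ^ m * y + u ^ (n - m + 1) * w := by
  have hpow : ∀ n : ℕ, D (u ^ (n + 1)) = ((n + 1 : ℕ) : S) * u ^ n * D u := by
    intro n
    induction n with
    | zero => simp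
    | succ n ih =>
      rw [pow_succ, hmul, ih]
      push_cast
      ring
  have hit : ∀ (m : ℕ) (a b : S), D^[m] (a + b) = D^[m] a + D^[m] b := by
    intro m
    induction m with
    | zero => intro a b; rfl
    | succ m ih =>
      intro a b
      rw [Function.iterate_succ_apply, Function.iterate_succ_apply, Function.iterate_succ_apply,
        hadd, ih]
  intro m
  induction m with
  | zero => intro n y _; exact ⟨0, by simp⟩
  | succ m ih =>
    intro n y hmn
    obtain ⟨n', rfl⟩ : ∃ n', n = n' + 1 := ⟨n - 1, by omega⟩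
    have h0 : D (u ^ (n' + 1) * y) = u ^ n' * (((n' + 1 : ℕ) : S) * D u * y) +
        u ^ (n' + 1) * D y := by
      rw [hmul, hpow]
      ring
    obtain ⟨w₁, h₁⟩ := ih n' (((n' + 1 : ℕ) : S) * D u * y) (by omega)
    obtain ⟨w₂, h₂⟩ := ih (n' + 1) (D y) (by omega)
    refine ⟨w₁ + ((n' + 1).descFactorial m : S) * (D u) ^ m * D y + u * w₂, ?_⟩
    rw [Function.iterate_succ_apply, h0, hit, h₁, h₂]
    have e1 : n' + 1 - (m + 1) = n' - m := by omega
    have e2 : n' + 1 - m = n' - m + 1 := by omega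
    have e3 : ((n' + 1).descFactorial (m + 1) : S) = ((n' + 1 : ℕ) : S) * (n'.descFactorial m : S) := by
      rw [Nat.succ_descFactorial_succ]
      push_cast
      ring
    rw [e1, e2, e3]
    ring
section Seidenberg
variable {A K : Type*} [CommRing A] [IsDomain A] [IsNoetherianRing A] [Field K] [Algebra A K]
  [IsFractionRing A K]
omit [IsDomain A] [IsNoetherianRing A] [IsFractionRing A K] in
theorem iterate_mem (D : Derivation ℤ K K)
    (hD : ∀ a : A, D (algebraMap A K a) ∈ (algebraMap A K).range) (n : ℕ) {x : K}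
    (hx : x ∈ (algebraMap A K).range) : (⇑D)^[n] x ∈ (algebraMap A K).range := by
  induction n with
  | zero => exact hx
  | succ n ih =>
    rw [Function.iterate_succ_apply']
    obtain ⟨a, ha⟩ := ih
    rw [← ha]
    exact hD a
theorem seidenberg (hQ : ∀ n : ℕ, n ≠ 0 → IsUnit (n : A)) (D : Derivation ℤ K K)
    (hD : ∀ a : A, D (algebraMap A K a) ∈ (algebraMap A K).range)
    (z : K) (hz : IsIntegral A z) : IsIntegral A (D z) := by
  classical
  obtain ⟨d, hd, hdz⟩ := hz.isAlmostIntegral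
  have hdz' : ∀ n, algebraMap A K d * z ^ n ∈ (algebraMap A K).range := fun n => by
    rw [← Algebra.smul_def]; exact hdz n
  suffices h : IsAlmostIntegral A (D z) by
    refine h.isIntegral_of_nonZeroDivisors_le_comap ?_
    intro x hx
    rw [Submonoid.mem_comap, mem_nonZeroDivisors_iff_ne_zero]
    intro h
    rw [map_eq_zero_iff _ (IsFractionRing.injective A K)] at h
    exact nonZeroDivisors.ne_zero hx h
  refine ⟨d * d, mul_mem hd hd, ?_⟩
  intro n
  let _ : Differential K := ⟨D⟩
  let E : K[X] → K[X] := fun p => Differential.mapCoeffs p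
  have hEc : ∀ p i, (E p).coeff i = D (p.coeff i) := fun p i => Differential.coeff_mapCoeffs p i
  have hE : ∀ (m : ℕ) (p : K[X]) (i : ℕ), (E^[m] p).coeff i = (⇑D)^[m] (p.coeff i) := by
    intro m
    induction m with
    | zero => intro p i; rfl
    | succ m ih =>
      intro p i
      rw [Function.iterate_succ_apply', Function.iterate_succ_apply', hEc, ih]
  let P : K[X] := (C z - X) ^ n * C (algebraMap A K d)
  obtain ⟨w, hw⟩ := deriv_iterate_pow_mul E (fun a b => map_add _ a b)
    (fun a b => Derivation.leibniz _ a b) (C z - X) n n (C (algebraMap A K d)) le_rfl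
  have hEu : E (C z - X) = C (D z) := by
    ext i
    rw [hEc, coeff_sub, map_sub, coeff_C, coeff_C, coeff_X]
    split_ifs <;> simp
  rw [hEu, Nat.sub_self, Nat.descFactorial_self] at hw
  have h1 : (E^[n] P).eval z = (n.factorial : K) * (D z) ^ n * algebraMap A K d := by
    have h1 := congrArg (eval z) hw
    simp only [pow_zero, mul_one, zero_add, pow_one, eval_add, eval_mul, eval_natCast, eval_pow,
      eval_C, eval_sub, eval_X, sub_self, zero_mul, add_zero] at h1
    exact h1
  have hPc : ∀ i, P.coeff i ∈ (algebraMap A K).range := by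
    intro i
    have : P = ∑ m ∈ Finset.range (n + 1),
        C (algebraMap A K d * z ^ m * (-1) ^ (n - m) * (n.choose m : K)) * X ^ (n - m) := by
      simp only [P]
      rw [sub_eq_add_neg, add_pow, Finset.sum_mul]
      refine Finset.sum_congr rfl fun m _ => ?_
      rw [neg_pow (X : K[X])]
      simp only [map_mul, map_pow, map_neg, map_one, map_natCast]
      ring
    rw [this, finsetSum_coeff]
    refine sum_mem fun m _ => ?_
    rw [coeff_C_mul_X_pow]
    split_ifs
    · exact mul_mem (mul_mem (hdz' m) (pow_mem (neg_mem (one_mem _)) _)) (natCast_mem _ _)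
    · exact zero_mem _
  have h2 : algebraMap A K d * (E^[n] P).eval z ∈ (algebraMap A K).range := by
    rw [eval_eq_sum_range, Finset.mul_sum]
    refine sum_mem fun i _ => ?_
    rw [hE]
    obtain ⟨a, ha⟩ := iterate_mem D hD n (hPc i)
    obtain ⟨b, hb⟩ := hdz' i
    exact ⟨a * b, by rw [map_mul, ha, hb]; ring⟩
  rw [h1] at h2
  obtain ⟨a, ha⟩ := h2
  obtain ⟨u, hu⟩ := hQ n.factorial n.factorial_ne_zero
  refine ⟨(u⁻¹ : Aˣ) * a, ?_⟩
  rw [map_mul, ha, Algebra.smul_def, map_mul]
  have h3 : algebraMap A K ((u⁻¹ : Aˣ) : A) * (n.factorial : K) = 1 := by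
    rw [← map_natCast (algebraMap A K), ← map_mul, ← hu, Units.inv_mul, map_one]
  calc _ = (algebraMap A K ((u⁻¹ : Aˣ) : A) * (n.factorial : K)) *
        (algebraMap A K d * algebraMap A K d * D z ^ n) := by ring
    _ = _ := by rw [h3, one_mul]
end Seidenberg
section MinPrimes
variable {A : Type*} [CommRing A]
lemma exists_mul_pow_mem_of_mem_minimalPrimes {J P : Ideal A} (hP : P ∈ J.minimalPrimes)
    {a : A} (ha : a ∈ P) : ∃ s ∉ P, ∃ n : ℕ, s * a ^ n ∈ J := by
  have hprime : P.IsPrime := hP.1.1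
  by_contra h
  push Not at h
  let S : Submonoid A :=
    { carrier := {x | ∃ s ∉ P, ∃ n : ℕ, x = s * a ^ n}
      one_mem' := ⟨1, fun h1 => hprime.ne_top ((Ideal.eq_top_iff_one _).2 h1), 0, by simp⟩
      mul_mem' := by
        rintro x y ⟨s, hs, n, rfl⟩ ⟨t, ht, m, rfl⟩
        refine ⟨s * t, fun h1 => ?_, n + m, by ring⟩
        rcases hprime.mem_or_mem h1 with h2 | h2
        · exact hs h2
        · exact ht h2 }
  have hdisj : Disjoint (J : Set A) S := by
    rw [Set.disjoint_left]
    rintro x hx ⟨s, hs, n, rfl⟩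
    exact h s hs n hx
  obtain ⟨Q, hQ, hJQ, hQS⟩ := Ideal.exists_le_prime_disjoint J S hdisj
  have hQP : Q ≤ P := by
    intro x hx
    by_contra hxP
    exact Set.disjoint_left.1 hQS hx ⟨x, hxP, 0, by simp⟩
  have haQ : a ∉ Q := fun haQ => Set.disjoint_left.1 hQS haQ
    ⟨1, fun h1 => hprime.ne_top ((Ideal.eq_top_iff_one _).2 h1), 1, by simp⟩
  exact haQ (hP.2 ⟨hQ, hJQ⟩ hQP ha)
theorem stable_of_mem_minimalPrimes {R : Type*} [CommRing R] [Algebra R A]
    (hQ : ∀ n : ℕ, n ≠ 0 → IsUnit (n : A)) (D : Derivation R A A) {J P : Ideal A}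
    (hJ : ∀ x ∈ J, D x ∈ J) (hP : P ∈ J.minimalPrimes) : ∀ x ∈ P, D x ∈ P := by
  classical
  intro a ha
  by_contra hDa
  have hprime : P.IsPrime := hP.1.1
  have hex : ∃ n : ℕ, ∃ s ∉ P, s * a ^ n ∈ J := by
    obtain ⟨s, hs, n, hn⟩ := exists_mul_pow_mem_of_mem_minimalPrimes hP ha
    exact ⟨n, s, hs, hn⟩
  obtain ⟨s, hs, hsn⟩ := Nat.find_spec hex
  have hmin := fun m => Nat.find_min hex (m := m)
  generalize Nat.find hex = n at hsn hmin
  rcases n with _ | n
  · rw [pow_zero, mul_one] at hsn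
    exact hs (hP.1.2 hsn)
  · refine hmin n (Nat.lt_succ_self n) ⟨s * s * D a, ?_, ?_⟩
    · intro h
      rcases hprime.mem_or_mem h with h | h
      · rcases hprime.mem_or_mem h with h | h <;> exact hs h
      · exact hDa h
    · have h1 := hJ _ hsn
      rw [Derivation.leibniz, Derivation.leibniz_pow] at h1
      simp only [smul_eq_mul, nsmul_eq_mul, Nat.add_sub_cancel] at h1
      have h2 : ((n + 1 : ℕ) : A) * (s * s * D a * a ^ n) =
          s * (s * (((n + 1 : ℕ) : A) * (a ^ n * D a)) + a ^ (n + 1) * D s) -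
            D s * (s * a ^ (n + 1)) := by ring
      have h3 : ((n + 1 : ℕ) : A) * (s * s * D a * a ^ n) ∈ J := by
        rw [h2]
        exact J.sub_mem (J.mul_mem_left _ h1) (J.mul_mem_left _ hsn)
      exact (Ideal.unit_mul_mem_iff_mem J (hQ (n + 1) n.succ_ne_zero)).1 h3
end MinPrimes
end Vale.Agent.P266
end
section
namespace Vale.Agent.P266
open TensorProduct
theorem exists_der_ext (R : Type*) {S T : Type*} [CommRing R] [CommRing S] [CommRing T]
    [Algebra R S] [Algebra R T] [Algebra S T] [IsScalarTower R S T] [Algebra.FormallyEtale S T]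
    (d : Derivation R S T) :
    ∃ D : Derivation R T T, ∀ s, D (algebraMap S T s) = d s := by
  let g : Ω[S⁄R] →ₗ[S] T := d.liftKaehlerDifferential
  let g' : T ⊗[S] Ω[S⁄R] →ₗ[T] T := LinearMap.liftBaseChange T g
  let h : Ω[T⁄R] →ₗ[T] T :=
    g' ∘ₗ (KaehlerDifferential.tensorKaehlerEquivOfFormallyEtale R S T).symm.toLinearMap
  refine ⟨h.compDer (KaehlerDifferential.D R T), ?_⟩
  intro s
  change g' ((KaehlerDifferential.tensorKaehlerEquivOfFormallyEtale R S T).symm
    (KaehlerDifferential.D R T (algebraMap S T s))) = d s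
  rw [KaehlerDifferential.tensorKaehlerEquivOfFormallyEtale_symm_D_algebraMap]
  simp [g', g]
theorem der_eq_zero_of_unramified {R S T : Type*} [CommRing R] [CommRing S] [CommRing T]
    [Algebra R T] [Algebra S T] [Algebra.FormallyUnramified S T]
    (D : Derivation R T T) (h : ∀ s : S, D (algebraMap S T s) = 0) : D = 0 := by
  let D' : Derivation S T T := Derivation.mk'
    { toFun := D
      map_add' := map_add D
      map_smul' := fun s t => by
        have h1 : ∀ x : T, s • x = algebraMap S T s * x := fun x => Algebra.smul_def s x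
        rw [h1, Derivation.leibniz, h, smul_zero, add_zero, RingHom.id_apply, h1, smul_eq_mul] }
    (fun a b => D.leibniz a b)
  have h1 : D' = 0 := by
    have hsub : Subsingleton (Ω[T⁄S]) := inferInstance
    have : D'.liftKaehlerDifferential = 0 := by
      refine LinearMap.ext fun x => ?_
      rw [Subsingleton.elim x 0, map_zero, map_zero]
    rw [← D'.liftKaehlerDifferential_comp, this]
    rfl
  ext t
  exact congrArg (fun E => E t) h1
end Vale.Agent.P266
end
section
namespace Vale.Agent.P266.CE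
section Free
variable {k A : Type*} [Field k] [CommRing A] [IsDomain A] [Algebra k A]
def minors (D₁ D₂ : Derivation k A A) : Ideal A :=
  Ideal.span {c | ∃ f g : A, c = D₁ f * D₂ g - D₁ g * D₂ f}
omit [IsDomain A] in
theorem minor_mem (D₁ D₂ : Derivation k A A) (f g : A) :
    D₁ f * D₂ g - D₁ g * D₂ f ∈ minors D₁ D₂ :=
  Ideal.subset_span ⟨f, g, rfl⟩
theorem der_cancel {d : A} (hd : d ≠ 0) {D E : Derivation k A A} (h : d • D = d • E) : D = E := by
  ext a
  have := congrArg (fun F : Derivation k A A => F a) h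
  simpa [hd] using this
omit [IsDomain A] in
theorem dvd_mul_minor {D₁ D₂ D : Derivation k A A} {d u v : A} (h : d • D = u • D₁ + v • D₂)
    {c : A} (hc : c ∈ minors D₁ D₂) : d ∣ u * c ∧ d ∣ v * c := by
  have hev : ∀ f, d * D f = u * D₁ f + v * D₂ f := fun f => by
    have := congrArg (fun F : Derivation k A A => F f) h
    simpa using this
  induction hc using Submodule.span_induction with
  | mem c hc =>
    obtain ⟨f, g, rfl⟩ := hc
    refine ⟨⟨D f * D₂ g - D g * D₂ f, ?_⟩, ⟨D₁ f * D g - D₁ g * D f, ?_⟩⟩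
    · linear_combination (-D₂ g) * hev f + D₂ f * hev g
    · linear_combination (-D₁ f) * hev g + D₁ g * hev f
  | zero => simp
  | add x y _ _ hx hy =>
    exact ⟨by rw [mul_add]; exact dvd_add hx.1 hy.1, by rw [mul_add]; exact dvd_add hx.2 hy.2⟩
  | smul t x _ hx =>
    refine ⟨?_, ?_⟩
    · rw [smul_eq_mul, mul_left_comm]; exact Dvd.dvd.mul_left hx.1 t
    · rw [smul_eq_mul, mul_left_comm]; exact Dvd.dvd.mul_left hx.2 t
theorem dvd_of_regular {a b : A} (ha : a ≠ 0) (hab : ∀ c, a ∣ c * b → a ∣ c) {d u : A}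
    (h1 : d ∣ u * a) (h2 : d ∣ u * b) : d ∣ u := by
  obtain ⟨p, hp⟩ := h1
  obtain ⟨q, hq⟩ := h2
  by_cases hd : d = 0
  · rw [hd, zero_mul] at hp
    rcases mul_eq_zero.mp hp with h | h
    · rw [h]; exact dvd_zero d
    · exact absurd h ha
  have hpb : p * b = q * a := by
    apply mul_left_cancel₀ hd
    linear_combination (-b) * hp + a * hq
  obtain ⟨s, hs⟩ := hab p ⟨q, by rw [hpb]; ring⟩
  refine ⟨s, ?_⟩
  apply mul_right_cancel₀ ha
  rw [hp, hs]
  ring
theorem exists_basis (D₁ D₂ : Derivation k A A)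
    (hspan : ∀ D : Derivation k A A, ∃ d u v : A, d ≠ 0 ∧ d • D = u • D₁ + v • D₂)
    {a b : A} (ha : a ∈ minors D₁ D₂) (hb : b ∈ minors D₁ D₂) (ha0 : a ≠ 0)
    (hab : ∀ c, a ∣ c * b → a ∣ c) :
    ∃ B : Module.Basis (Fin 2) A (Derivation k A A), B 0 = D₁ ∧ B 1 = D₂ := by
  have hmin : ∃ f g : A, D₁ f * D₂ g - D₁ g * D₂ f ≠ 0 := by
    by_contra! hcon
    apply ha0
    have : minors D₁ D₂ ≤ ⊥ := by
      rw [minors, Ideal.span_le]
      rintro c ⟨f, g, rfl⟩
      exact hcon f g
    exact this ha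
  obtain ⟨f, g, hfg⟩ := hmin
  have hli : LinearIndependent A ![D₁, D₂] := by
    rw [LinearIndependent.pair_iff]
    intro s t hst
    have hev : ∀ f, s * D₁ f + t * D₂ f = 0 := fun f => by
      have := congrArg (fun F : Derivation k A A => F f) hst
      simpa using this
    refine ⟨?_, ?_⟩
    · have : s * (D₁ f * D₂ g - D₁ g * D₂ f) = 0 := by
        linear_combination D₂ g * hev f - D₂ f * hev g
      exact (mul_eq_zero.mp this).resolve_right hfg
    · have : t * (D₁ f * D₂ g - D₁ g * D₂ f) = 0 := by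
        linear_combination D₁ f * hev g - D₁ g * hev f
      exact (mul_eq_zero.mp this).resolve_right hfg
  have hsp : ⊤ ≤ Submodule.span A (Set.range ![D₁, D₂]) := by
    intro D _
    obtain ⟨d, u, v, hd, h⟩ := hspan D
    obtain ⟨p, hp⟩ := dvd_of_regular ha0 hab (dvd_mul_minor h ha).1 (dvd_mul_minor h hb).1
    obtain ⟨q, hq⟩ := dvd_of_regular ha0 hab (dvd_mul_minor h ha).2 (dvd_mul_minor h hb).2
    have hD : D = p • D₁ + q • D₂ := by
      apply der_cancel hd
      rw [h, hp, hq, smul_add, smul_smul, smul_smul]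
    rw [hD]
    refine add_mem (Submodule.smul_mem _ _ (Submodule.subset_span ⟨0, rfl⟩))
      (Submodule.smul_mem _ _ (Submodule.subset_span ⟨1, rfl⟩))
  exact ⟨Module.Basis.mk hli hsp, by simp, by simp⟩
theorem der_eq_zero_of_algebraic [CharZero k] (S : Subalgebra k A) [Algebra.IsAlgebraic S A]
    (D : Derivation k A A) (h : ∀ s ∈ S, D s = 0) : D = 0 := by
  let E : Derivation S A A :=
    { toFun := D
      map_add' := fun a b => map_add D a b
      map_smul' := fun s a => by
        rw [Subalgebra.smul_def, smul_eq_mul, Derivation.leibniz, h s s.2]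
        simp [Subalgebra.smul_def]
      map_one_eq_zero' := D.map_one_eq_zero
      leibniz' := fun a b => D.leibniz a b }
  have key : ∀ (n : ℕ) (p : Polynomial S) (y : A), p.natDegree ≤ n → p ≠ 0 →
      Polynomial.aeval y p = 0 → D y = 0 := by
    intro n
    induction n with
    | zero =>
      intro p y hp hp0 hy
      exfalso
      rw [Polynomial.eq_C_of_natDegree_le_zero hp, Polynomial.aeval_C] at hy
      apply hp0
      rw [Polynomial.eq_C_of_natDegree_le_zero hp]
      have : p.coeff 0 = 0 := Subtype.ext hy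
      rw [this, Polynomial.C_0]
    | succ n ih =>
      intro p y hp hp0 hy
      by_cases hd : p.derivative = 0
      · have : CharZero S := charZero_of_injective_algebraMap (FaithfulSMul.algebraMap_injective k S)
        have h0 := Polynomial.derivative_eq_zero.mp hd
        exact ih p y (by omega) hp0 hy
      · by_cases he : Polynomial.aeval y p.derivative = 0
        · refine ih _ y ?_ hd he
          have := Polynomial.natDegree_derivative_le p
          omega
        · have h1 : E (Polynomial.aeval y p) = Polynomial.aeval y p.derivative • E y :=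
            Derivation.map_aeval E p y
          rw [hy, map_zero, smul_eq_mul] at h1
          exact (mul_eq_zero.mp h1.symm).resolve_left he
  ext y
  obtain ⟨p, hp0, hy⟩ := Algebra.IsAlgebraic.isAlgebraic (R := S) y
  exact key p.natDegree p y le_rfl hp0 hy
theorem span_of_algebraic [CharZero k] (x y : A)
    [Algebra.IsAlgebraic (Algebra.adjoin k {x, y}) A] (D₁ D₂ : Derivation k A A)
    (hΔ : D₁ x * D₂ y - D₁ y * D₂ x ≠ 0) (D : Derivation k A A) :
    ∃ d u v : A, d ≠ 0 ∧ d • D = u • D₁ + v • D₂ := by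
  refine ⟨D₁ x * D₂ y - D₁ y * D₂ x, D x * D₂ y - D y * D₂ x, D₁ x * D y - D₁ y * D x, hΔ, ?_⟩
  rw [← sub_eq_zero]
  apply der_eq_zero_of_algebraic (Algebra.adjoin k {x, y})
  intro s hs
  induction hs using Algebra.adjoin_induction with
  | mem s hs =>
    rcases hs with rfl | rfl
    · simp; ring
    · simp; ring
  | algebraMap r => simp
  | add a b _ _ ha hb => rw [map_add, ha, hb, add_zero]
  | mul a b _ _ ha hb => rw [Derivation.leibniz, ha, hb, smul_zero, smul_zero, add_zero]
omit [IsDomain A] in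
theorem regular_of_free {R : Type*} [CommRing R] [Algebra R A] [Module.Free R A] {a b : R}
    (hab : ∀ c, a ∣ c * b → a ∣ c) (c : A) (h : algebraMap R A a ∣ c * algebraMap R A b) :
    algebraMap R A a ∣ c := by
  let B := Module.Free.chooseBasis R A
  obtain ⟨q, hq⟩ := h
  have h1 : b • c = a • q := by
    rw [Algebra.smul_def, Algebra.smul_def, mul_comm, hq]
  have h2 : ∀ i, a ∣ B.repr c i := fun i => by
    apply hab
    have := congrArg (fun z => B.repr z i) h1
    simp only [map_smul, Finsupp.smul_apply, smul_eq_mul] at this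
    exact ⟨B.repr q i, by rw [mul_comm, this]⟩
  choose s hs using h2
  classical
  refine ⟨∑ i ∈ (B.repr c).support, s i • B i, ?_⟩
  rw [← Algebra.smul_def, Finset.smul_sum]
  conv_lhs => rw [← B.linearCombination_repr c, Finsupp.linearCombination_apply, Finsupp.sum]
  refine Finset.sum_congr rfl fun i _ => ?_
  rw [hs i, smul_smul]
end Free
section NotRegular
open IsLocalRing
theorem ringKrullDim_le_of_isIntegral (R A : Type*) [CommRing R] [CommRing A] [Algebra R A]
    [Algebra.IsIntegral R A] : ringKrullDim A ≤ ringKrullDim R := by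
  refine Order.krullDim_le_of_strictMono (fun p => PrimeSpectrum.comap (algebraMap R A) p) ?_
  intro p q hpq
  exact Ideal.IsIntegral.comap_lt_comap hpq
theorem not_isRegularRing {A : Type*} [CommRing A] [Algebra ℂ A] (hdim : ringKrullDim A ≤ 2)
    (φ : A →ₐ[ℂ] TrivSqZeroExt ℂ (Fin 3 → ℂ)) (hφ : Function.Surjective φ) :
    ¬ IsRegularRing A := by
  intro hreg
  let ε : A →+* ℂ := (TrivSqZeroExt.fstHom ℂ ℂ (Fin 3 → ℂ)).toRingHom.comp φ.toRingHom
  have hε : ∀ a, ε a = (φ a).fst := fun a => rfl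
  let m : Ideal A := RingHom.ker ε
  have hm : m.IsPrime := RingHom.ker_isPrime ε
  have hR := hreg.isRegularLocalRing_localization m
  let R := Localization.AtPrime m
  have hunit : ∀ s : m.primeCompl, IsUnit (φ s) := by
    intro s
    have hs : (φ s).fst ≠ 0 := fun h => s.2 ((RingHom.mem_ker).mpr h)
    rw [TrivSqZeroExt.isUnit_iff_isUnit_fst]
    exact isUnit_iff_ne_zero.mpr hs
  let ψ : R →+* TrivSqZeroExt ℂ (Fin 3 → ℂ) := IsLocalization.lift (M := m.primeCompl)
    (g := φ.toRingHom) hunit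
  have hψ : ∀ a, ψ (algebraMap A R a) = φ a := fun a => IsLocalization.lift_eq hunit a
  have hd : ringKrullDim R ≤ 2 := by
    have h1 : ringKrullDim R = m.height := IsLocalization.AtPrime.ringKrullDim_eq_height m R
    rw [h1]
    exact (Ideal.height_le_ringKrullDim_of_ne_top hm.ne_top).trans hdim
  have hs : ((maximalIdeal R).spanFinrank : WithBot ℕ∞) ≤ 2 := by
    rw [IsRegularLocalRing.spanFinrank_maximalIdeal]
    exact hd
  have hs2 : (maximalIdeal R).spanFinrank ≤ 2 := by exact_mod_cast hs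
  have hfg : (maximalIdeal R).FG := IsNoetherian.noetherian _
  obtain ⟨g, hgc, hg⟩ := Submodule.FG.exists_span_finset_card_eq_spanFinrank hfg
  have hfst : ∀ z ∈ maximalIdeal R, (ψ z).fst = 0 := by
    intro z hz
    by_contra hne
    obtain ⟨a, s, rfl⟩ := IsLocalization.exists_mk'_eq m.primeCompl z
    have h2 : algebraMap A R a ∈ maximalIdeal R := by
      rw [← IsLocalization.mk'_spec R a s]
      exact Ideal.mul_mem_right _ _ hz
    have h3 : a ∈ m := by
      by_contra ha
      exact (mem_maximalIdeal _).mp h2 (IsLocalization.map_units R (⟨a, ha⟩ : m.primeCompl))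
    have h4 : (φ a).fst = 0 := (RingHom.mem_ker).mp h3
    have h5 : ψ (IsLocalization.mk' R a s) * φ s = φ a := by
      rw [← hψ, ← hψ, ← map_mul, IsLocalization.mk'_spec]
    have h6 := congrArg TrivSqZeroExt.fst h5
    rw [TrivSqZeroExt.fst_mul, h4] at h6
    have h7 : (φ s).fst ≠ 0 := fun h => s.2 ((RingHom.mem_ker).mpr h)
    exact hne ((mul_eq_zero.mp h6).resolve_right h7)
  have hsub : (⊤ : Submodule ℂ (Fin 3 → ℂ)) ≤
      Submodule.span ℂ ((fun z => (ψ z).snd) '' (g : Set R)) := by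
    intro v _
    obtain ⟨a, ha⟩ := hφ (TrivSqZeroExt.inr v)
    have ham : algebraMap A R a ∈ maximalIdeal R := by
      rw [mem_maximalIdeal, mem_nonunits_iff]
      intro hu
      have : IsUnit (φ a) := by rw [← hψ]; exact hu.map ψ
      rw [ha, TrivSqZeroExt.isUnit_iff_isUnit_fst, TrivSqZeroExt.fst_inr] at this
      simp at this
    have hv : v = (ψ (algebraMap A R a)).snd := by rw [hψ, ha, TrivSqZeroExt.snd_inr]
    rw [hv]
    have key : ∀ z ∈ Submodule.span R (g : Set R),
        (ψ z).snd ∈ Submodule.span ℂ ((fun z => (ψ z).snd) '' (g : Set R)) := by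
      intro z hz
      induction hz using Submodule.span_induction with
      | mem z hz => exact Submodule.subset_span ⟨z, hz, rfl⟩
      | zero => simp
      | add x y _ _ hx hy => rw [map_add, TrivSqZeroExt.snd_add]; exact add_mem hx hy
      | smul t x hx ih =>
        have hx0 : (ψ x).fst = 0 := hfst x (by rw [← hg]; exact hx)
        rw [smul_eq_mul, map_mul, TrivSqZeroExt.snd_mul, hx0]
        simpa using Submodule.smul_mem _ _ ih
    exact key _ (by rw [hg]; exact ham)
  have hfin : Module.finrank ℂ (Submodule.span ℂ ((fun z => (ψ z).snd) '' (g : Set R))) ≤ 2 := by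
    classical
    have h1 := finrank_span_finset_le_card (R := ℂ) (g.image (fun z => (ψ z).snd))
    rw [Finset.coe_image] at h1
    exact h1.trans (Finset.card_image_le.trans (by omega))
  have htop : Submodule.span ℂ ((fun z => (ψ z).snd) '' (g : Set R)) = ⊤ := top_le_iff.mp hsub
  rw [htop, finrank_top] at hfin
  simp at hfin
end NotRegular
end Vale.Agent.P266.CE
end
section
namespace Vale.Agent.P266.CE
open Polynomial
theorem minpoly_smul_eq {L K : Type*} [Field L] [Field K] [Algebra L K] {u : K}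
    (hu : IsIntegral L u) {n : L} (hn : n ≠ 0) :
    minpoly L (algebraMap L K n * u) = (minpoly L u).scaleRoots n := by
  have hnu : IsIntegral L (algebraMap L K n * u) := (isIntegral_algebraMap).mul hu
  have hmon : ((minpoly L u).scaleRoots n).Monic :=
    (monic_scaleRoots_iff n).2 (minpoly.monic hu)
  have hroot : aeval (algebraMap L K n * u) ((minpoly L u).scaleRoots n) = 0 :=
    scaleRoots_aeval_eq_zero (minpoly.aeval L u)
  have hdvd : minpoly L (algebraMap L K n * u) ∣ (minpoly L u).scaleRoots n :=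
    minpoly.dvd L _ hroot
  have hn' : algebraMap L K n ≠ 0 := by
    rwa [Ne, map_eq_zero_iff _ (algebraMap L K).injective]
  have h2 : minpoly L u ∣ (minpoly L (algebraMap L K n * u)).scaleRoots n⁻¹ := by
    apply minpoly.dvd
    have h3 := scaleRoots_aeval_eq_zero (r := n⁻¹) (minpoly.aeval L (algebraMap L K n * u))
    rwa [map_inv₀, inv_mul_cancel_left₀ hn'] at h3
  have hle : (minpoly L u).natDegree ≤ (minpoly L (algebraMap L K n * u)).natDegree := by
    have h4 := natDegree_le_of_dvd h2 (((monic_scaleRoots_iff _).2 (minpoly.monic hnu)).ne_zero)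
    rwa [natDegree_scaleRoots] at h4
  refine (eq_of_monic_of_dvd_of_natDegree_le (minpoly.monic hnu) hmon hdvd ?_).symm
  rw [natDegree_scaleRoots]
  exact hle
theorem isIntegral_of_relPrime {S L K : Type*} [CommRing S] [IsDomain S]
    [UniqueFactorizationMonoid S] [Field L] [Field K] [Algebra S L] [IsFractionRing S L]
    [Algebra S K] [Algebra L K] [IsScalarTower S L K] {u : K} (hu : IsIntegral L u) {n₁ n₂ : S}
    (h₁ : n₁ ≠ 0) (h₂ : n₂ ≠ 0) (hrel : IsRelPrime n₁ n₂)
    (hi₁ : IsIntegral S (algebraMap S K n₁ * u)) (hi₂ : IsIntegral S (algebraMap S K n₂ * u)) :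
    IsIntegral S u := by
  classical
  have hinj : Function.Injective (algebraMap S L) := IsFractionRing.injective S L
  have hcoef : ∀ {n : S} (_ : n ≠ 0) (_ : IsIntegral S (algebraMap S K n * u)) (i : ℕ),
      ∃ s : S, algebraMap S L s = (minpoly L u).coeff i *
        algebraMap S L (n ^ ((minpoly L u).natDegree - i)) := by
    intro n hn hi i
    have hn' : algebraMap S L n ≠ 0 := by rwa [Ne, map_eq_zero_iff _ hinj]
    have h3 := minpoly_smul_eq hu hn'
    rw [← IsScalarTower.algebraMap_apply S L K] at h3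
    have h4 := minpoly.isIntegrallyClosed_eq_field_fractions' L hi
    rw [h3] at h4
    refine ⟨(minpoly S (algebraMap S K n * u)).coeff i, ?_⟩
    rw [← coeff_map, ← h4, coeff_scaleRoots, map_pow]
  have hlift : ∀ i, ∃ s : S, algebraMap S L s = (minpoly L u).coeff i := by
    intro i
    obtain ⟨s₁, hs₁⟩ := hcoef h₁ hi₁ i
    obtain ⟨s₂, hs₂⟩ := hcoef h₂ hi₂ i
    set k := (minpoly L u).natDegree - i
    have h5 : s₁ * n₂ ^ k = s₂ * n₁ ^ k := by
      apply hinj
      rw [map_mul, map_mul, hs₁, hs₂]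
      ring
    have hrel' : IsRelPrime (n₁ ^ k) (n₂ ^ k) := hrel.pow
    have h6 : n₁ ^ k ∣ s₁ := by
      apply hrel'.dvd_of_dvd_mul_right
      exact ⟨s₂, by rw [h5]; ring⟩
    obtain ⟨s, rfl⟩ := h6
    refine ⟨s, ?_⟩
    have h7 : algebraMap S L (n₁ ^ k) ≠ 0 := by
      rw [Ne, map_eq_zero_iff _ hinj]
      exact pow_ne_zero _ h₁
    apply mul_right_cancel₀ h7
    rw [← hs₁, map_mul, mul_comm]
  have hmem : minpoly L u ∈ lifts (algebraMap S L) := by
    rw [lifts_iff_coeff_lifts]
    intro i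
    obtain ⟨s, hs⟩ := hlift i
    exact ⟨s, hs⟩
  obtain ⟨q, hq, -, hqm⟩ := lifts_and_natDegree_eq_and_monic hmem (minpoly.monic hu)
  refine ⟨q, hqm, ?_⟩
  have h8 : aeval u (minpoly L u) = 0 := minpoly.aeval L u
  rw [← hq, aeval_map_algebraMap] at h8
  exact h8
end Vale.Agent.P266.CE
end
section
namespace Vale.Agent.P266.CE
open KaehlerDifferential
variable {A : Type*} [CommRing A] [Algebra ℂ A]
omit [Algebra ℂ A] in
theorem mem_smul_top_of_forall_dual {M : Type*} [AddCommGroup M] [Module A M]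
    [Module.Finite A M] [Module.Projective A M] (m : Ideal A) (x : M)
    (h : ∀ φ : M →ₗ[A] A, φ x ∈ m) : x ∈ m • (⊤ : Submodule A M) := by
  classical
  obtain ⟨n, f, hf⟩ := Module.Finite.exists_fin' A M
  obtain ⟨s, hs⟩ := Module.projective_lifting_property f LinearMap.id hf
  have hx : x = f (s x) := by
    have := LinearMap.congr_fun hs x
    simpa using this.symm
  rw [hx]
  have h2 : s x = ∑ i, (s x i) • Pi.single i (1 : A) := by
    ext j
    simp [Finset.sum_apply, Pi.single_apply]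
  rw [h2, map_sum]
  refine sum_mem fun i _ => ?_
  rw [map_smul]
  refine Submodule.smul_mem_smul ?_ trivial
  exact h ((LinearMap.proj i).comp s)
noncomputable def evDer (m : Ideal A) (ψ : A →ₐ[ℂ] ℂ) (hψ : ∀ a, ψ a = 0 → a ∈ m) :
    Derivation ℂ A (A ⧸ m ^ 2) :=
  Derivation.mk'
    ((Ideal.Quotient.mkₐ ℂ (m ^ 2)).toLinearMap -
      ((Algebra.linearMap ℂ (A ⧸ m ^ 2)).comp ψ.toLinearMap))
    (by
      intro a b
      have ha : a - algebraMap ℂ A (ψ a) ∈ m := hψ _ (by simp)
      have hb : b - algebraMap ℂ A (ψ b) ∈ m := hψ _ (by simp)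
      have hab : (a - algebraMap ℂ A (ψ a)) * (b - algebraMap ℂ A (ψ b)) ∈ m ^ 2 := by
        rw [pow_two]; exact Ideal.mul_mem_mul ha hb
      have h1 : Ideal.Quotient.mk (m ^ 2)
          ((a - algebraMap ℂ A (ψ a)) * (b - algebraMap ℂ A (ψ b))) = 0 :=
        Ideal.Quotient.eq_zero_iff_mem.2 hab
      have e1 : ∀ c : ℂ, algebraMap ℂ (A ⧸ m ^ 2) c = Ideal.Quotient.mk (m ^ 2)
        (algebraMap ℂ A c) := fun c => rfl
      simp only [LinearMap.sub_apply, AlgHom.toLinearMap_apply, Ideal.Quotient.mkₐ_eq_mk,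
        LinearMap.comp_apply, Algebra.linearMap_apply, map_mul, e1]
      simp only [Algebra.smul_def, Ideal.Quotient.algebraMap_eq]
      rw [map_mul, map_sub, map_sub] at h1
      linear_combination (-1 : A ⧸ m ^ 2) * h1)
theorem evDer_apply (m : Ideal A) (ψ : A →ₐ[ℂ] ℂ) (hψ : ∀ a, ψ a = 0 → a ∈ m) (a : A) :
    evDer m ψ hψ a = Ideal.Quotient.mk (m ^ 2) a - algebraMap ℂ _ (ψ a) := rfl
theorem not_projective_kaehler [IsDomain A] [Algebra.FiniteType ℂ A] (m : Ideal A) [m.IsMaximal]
    (hm : m ≠ ⊥) (h : ∀ D : Derivation ℂ A A, ∀ f ∈ m, D f ∈ m) :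
    ¬ Module.Projective A (Ω[A⁄ℂ]) := by
  intro hproj
  have hN : IsNoetherianRing A := Algebra.FiniteType.isNoetherianRing ℂ A
  let _ : Field (A ⧸ m) := Ideal.Quotient.field m
  have hfin : Module.Finite ℂ (A ⧸ m) := finite_of_finite_type_of_isJacobsonRing ℂ (A ⧸ m)
  have hint : Algebra.IsIntegral ℂ (A ⧸ m) := inferInstance
  have hbij : Function.Bijective (algebraMap ℂ (A ⧸ m)) :=
    IsAlgClosed.algebraMap_bijective_of_isIntegral
  let e : ℂ ≃ₐ[ℂ] (A ⧸ m) := AlgEquiv.ofBijective (Algebra.ofId ℂ (A ⧸ m)) hbij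
  let ψ : A →ₐ[ℂ] ℂ := e.symm.toAlgHom.comp (Ideal.Quotient.mkₐ ℂ m)
  have hψ : ∀ a, ψ a = 0 → a ∈ m := by
    intro a ha
    have h1 : e.symm (Ideal.Quotient.mk m a) = 0 := ha
    have h2 : Ideal.Quotient.mk m a = 0 := by
      rw [← e.apply_symm_apply (Ideal.Quotient.mk m a), h1, map_zero]
    exact Ideal.Quotient.eq_zero_iff_mem.1 h2
  have hψ' : ∀ a ∈ m, ψ a = 0 := by
    intro a ha
    change e.symm (Ideal.Quotient.mk m a) = 0
    rw [Ideal.Quotient.eq_zero_iff_mem.2 ha, map_zero]
  let δ := evDer m ψ hψ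
  have hδ : ∀ a, δ a ∈ m.map (Ideal.Quotient.mk (m ^ 2)) := by
    intro a
    have h1 : δ a = Ideal.Quotient.mk (m ^ 2) (a - algebraMap ℂ A (ψ a)) := by
      rw [map_sub]; rfl
    rw [h1]
    exact Ideal.mem_map_of_mem _ (hψ _ (by simp))
  have hlift : ∀ w : Ω[A⁄ℂ], δ.liftKaehlerDifferential w ∈
      m.map (Ideal.Quotient.mk (m ^ 2)) := by
    intro w
    have hw : w ∈ Submodule.span A (Set.range (KaehlerDifferential.D ℂ A)) := by
      rw [KaehlerDifferential.span_range_derivation]; trivial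
    induction hw using Submodule.span_induction with
    | mem w hw =>
      obtain ⟨a, rfl⟩ := hw
      rw [Derivation.liftKaehlerDifferential_comp_D]
      exact hδ a
    | zero => rw [map_zero]; exact zero_mem _
    | add x y _ _ hx hy => rw [map_add]; exact add_mem hx hy
    | smul c x _ hx =>
      rw [map_smul, Algebra.smul_def]
      exact Ideal.mul_mem_left _ _ hx
  have hsub : m ≤ m ^ 2 := by
    intro f hf
    have hDf : KaehlerDifferential.D ℂ A f ∈ m • (⊤ : Submodule A (Ω[A⁄ℂ])) := by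
      refine mem_smul_top_of_forall_dual m _ fun φ => ?_
      exact h (φ.compDer (KaehlerDifferential.D ℂ A)) f hf
    have hzero : ∀ w ∈ m • (⊤ : Submodule A (Ω[A⁄ℂ])), δ.liftKaehlerDifferential w = 0 := by
      intro w hw
      induction hw using Submodule.smul_induction_on' with
      | smul a ha w _ =>
        rw [map_smul, Algebra.smul_def]
        have h1 : algebraMap A (A ⧸ m ^ 2) a * δ.liftKaehlerDifferential w ∈
            m.map (Ideal.Quotient.mk (m ^ 2)) * m.map (Ideal.Quotient.mk (m ^ 2)) :=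
          Ideal.mul_mem_mul (Ideal.mem_map_of_mem _ ha) (hlift w)
        have h2 : m.map (Ideal.Quotient.mk (m ^ 2)) * m.map (Ideal.Quotient.mk (m ^ 2)) = ⊥ := by
          rw [← Ideal.map_mul, ← pow_two, Ideal.map_quotient_self]
        rw [h2] at h1
        exact h1
      | add x _ y _ hx hy => rw [map_add, hx, hy, add_zero]
    have h1 := hzero _ hDf
    rw [Derivation.liftKaehlerDifferential_comp_D] at h1
    have h2 : Ideal.Quotient.mk (m ^ 2) f - algebraMap ℂ _ (ψ f) = 0 := h1
    rw [hψ' f hf, map_zero, sub_zero] at h2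
    exact Ideal.Quotient.eq_zero_iff_mem.1 h2
  have hid : IsIdempotentElem m := by
    apply le_antisymm Ideal.mul_le_left
    rw [← pow_two]; exact hsub
  rcases (Ideal.isIdempotentElem_iff_eq_bot_or_top m (IsNoetherian.noetherian m)).1 hid with h1 | h1
  · exact hm h1
  · exact (Ideal.IsMaximal.ne_top ‹_›) h1
end Vale.Agent.P266.CE
end
section
namespace Vale.Agent.P266.CE
open Polynomial
theorem minors_map {k B A : Type*} [Field k] [CommRing B] [CommRing A] [Algebra k B] [Algebra k A]
    (f : B →+* A) (D₁ D₂ : Derivation k B B) (E₁ E₂ : Derivation k A A)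
    (h₁ : ∀ b, E₁ (f b) = f (D₁ b)) (h₂ : ∀ b, E₂ (f b) = f (D₂ b)) {c : B}
    (hc : c ∈ minors D₁ D₂) : f c ∈ minors E₁ E₂ := by
  have h : minors D₁ D₂ ≤ (minors E₁ E₂).comap f := by
    rw [minors, Ideal.span_le]
    rintro c ⟨a, b, rfl⟩
    have h3 : f (D₁ a * D₂ b - D₁ b * D₂ a) ∈ minors E₁ E₂ := by
      rw [map_sub, map_mul, map_mul, ← h₁, ← h₁, ← h₂, ← h₂]
      exact minor_mem E₁ E₂ (f a) (f b)
    exact h3
  exact h hc
theorem exists_der_integralClosure {k S B K : Type*} [Field k] [CommRing S] [CommRing B]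
    [IsDomain B] [IsNoetherianRing B] [Field K] [Algebra k S] [Algebra k B] [Algebra S B]
    [IsScalarTower k S B] [Algebra B K] [IsFractionRing B K] [Algebra S K] [IsScalarTower S B K]
    [Algebra k K] [IsScalarTower k S K] [IsScalarTower k B K] [Algebra.IsIntegral S B]
    (hQ : ∀ n : ℕ, n ≠ 0 → IsUnit (n : B))
    (D : Derivation k B B) :
    ∃ E : Derivation k (integralClosure S K) (integralClosure S K),
      ∀ (b : B) (hb : algebraMap B K b ∈ integralClosure S K),
        ((E ⟨algebraMap B K b, hb⟩ : integralClosure S K) : K) = algebraMap B K (D b) := by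
  have hfe : Algebra.FormallyEtale B K := .of_isLocalization (nonZeroDivisors B)
  obtain ⟨F, hF⟩ := exists_der_ext k ((Algebra.linearMap B K).compDer D)
  have hF' : ∀ b : B, F (algebraMap B K b) = algebraMap B K (D b) := hF
  have hmem : ∀ z : K, z ∈ integralClosure S K → F z ∈ integralClosure S K := by
    intro z hz
    have hz' : IsIntegral B z := IsIntegral.tower_top hz
    let F₀ : Derivation ℤ K K := F.restrictScalars ℤ
    have h1 : IsIntegral B (F z) :=
      seidenberg hQ F₀ (fun a => ⟨D a, (hF' a).symm⟩) z hz'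
    exact isIntegral_trans (A := B) (F z) h1
  refine ⟨Derivation.mk'
    { toFun := fun c => ⟨F c, hmem c c.2⟩
      map_add' := fun a b => Subtype.ext (by simp)
      map_smul' := fun t a => Subtype.ext (by
        change F ((t • a : integralClosure S K) : K) = _
        have h1 : ((t • a : integralClosure S K) : K) = t • (a : K) := rfl
        rw [h1, F.map_smul]
        rfl) }
    (fun a b => Subtype.ext ?_), ?_⟩
  · change F ((a * b : integralClosure S K) : K) = _
    have h1 : ((a * b : integralClosure S K) : K) = (a : K) * (b : K) := rfl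
    rw [h1, Derivation.leibniz]
    rfl
  · intro b hb
    exact hF' b
end Vale.Agent.P266.CE
end
section
namespace Vale.Agent.P266.CE
open Polynomial
theorem der_eq_zero_of_isAlgebraic {k S A : Type*} [Field k] [CharZero k] [CommRing S]
    [CommRing A] [IsDomain A] [Algebra k S] [Algebra k A] [Algebra S A] [IsScalarTower k S A]
    (hinj : Function.Injective (algebraMap S A)) [Algebra.IsAlgebraic S A]
    (D : Derivation k A A) (h : ∀ s : S, D (algebraMap S A s) = 0) : D = 0 := by
  let f : S →ₐ[k] A := IsScalarTower.toAlgHom k S A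
  have halg : Algebra.IsAlgebraic f.range A := by
    refine ⟨fun a => ?_⟩
    obtain ⟨p, hp0, hp⟩ := Algebra.IsAlgebraic.isAlgebraic (R := S) a
    have hfi : Function.Injective f.rangeRestrict := by
      intro u v huv
      exact hinj (congrArg Subtype.val huv)
    refine ⟨p.map f.rangeRestrict.toRingHom, ?_, ?_⟩
    · exact (Polynomial.map_ne_zero_iff hfi).2 hp0
    · rw [Polynomial.aeval_def, Polynomial.eval₂_map]
      rw [Polynomial.aeval_def] at hp
      exact hp
  refine der_eq_zero_of_algebraic f.range D ?_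
  rintro s ⟨t, rfl⟩
  exact h t
theorem der_eq_zero_of_two {k S A : Type*} [Field k] [CharZero k] [CommRing S]
    [CommRing A] [IsDomain A] [Algebra k S] [Algebra k A] [Algebra S A] [IsScalarTower k S A]
    (hinj : Function.Injective (algebraMap S A)) [Algebra.IsAlgebraic S A]
    {x y : S} (hxy : Algebra.adjoin k {x, y} = ⊤)
    (D : Derivation k A A) (hx : D (algebraMap S A x) = 0) (hy : D (algebraMap S A y) = 0) :
    D = 0 := by
  refine der_eq_zero_of_isAlgebraic hinj D fun s => ?_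
  have hs : s ∈ Algebra.adjoin k {x, y} := by rw [hxy]; trivial
  induction hs using Algebra.adjoin_induction with
  | mem s hs =>
    rcases hs with rfl | rfl
    · exact hx
    · exact hy
  | algebraMap r =>
    rw [← IsScalarTower.algebraMap_apply k S A]
    exact D.map_algebraMap r
  | add a b _ _ ha hb => rw [map_add, map_add, ha, hb, add_zero]
  | mul a b _ _ ha hb => rw [map_mul, Derivation.leibniz, ha, hb, smul_zero, smul_zero, add_zero]
theorem minor_ne_zero {k A : Type*} [Field k] [CommRing A] [IsDomain A] [Algebra k A] (x y : A)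
    (h0 : ∀ D : Derivation k A A, D x = 0 → D y = 0 → D = 0) (D₁ D₂ : Derivation k A A)
    {c : A} (hc : c ∈ minors D₁ D₂) (hc0 : c ≠ 0) : D₁ x * D₂ y - D₁ y * D₂ x ≠ 0 := by
  intro hΔ
  have key : ∀ a b : A, (a ≠ 0 ∨ b ≠ 0) → a • D₁ + b • D₂ = 0 → False := by
    intro a b hab h
    apply hc0
    have hle : minors D₁ D₂ ≤ ⊥ := by
      rw [minors, Ideal.span_le]
      rintro c ⟨f, g, rfl⟩
      have hf : a * D₁ f + b * D₂ f = 0 := by
        have := congrArg (fun E : Derivation k A A => E f) h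
        simpa using this
      have hg : a * D₁ g + b * D₂ g = 0 := by
        have := congrArg (fun E : Derivation k A A => E g) h
        simpa using this
      change D₁ f * D₂ g - D₁ g * D₂ f ∈ (⊥ : Ideal A)
      rw [Ideal.mem_bot]
      rcases hab with ha | hb
      · apply mul_left_cancel₀ ha
        linear_combination D₂ g * hf - D₂ f * hg
      · apply mul_left_cancel₀ hb
        linear_combination D₁ f * hg - D₁ g * hf
    exact hle hc
  have e1 : (D₂ x) • D₁ + (-D₁ x) • D₂ = 0 := by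
    apply h0
    · simp; ring
    · simp; linear_combination (-1 : A) * hΔ
  have e2 : (D₂ y) • D₁ + (-D₁ y) • D₂ = 0 := by
    apply h0
    · simp; linear_combination hΔ
    · simp; ring
  by_cases h1 : D₁ x = 0
  · by_cases h2 : D₁ y = 0
    · have h3 : D₁ = 0 := h0 D₁ h1 h2
      exact key 1 0 (Or.inl one_ne_zero) (by rw [h3]; simp)
    · exact key _ _ (Or.inr (neg_ne_zero.2 h2)) e2
  · exact key _ _ (Or.inr (neg_ne_zero.2 h1)) e1
end Vale.Agent.P266.CE
end
section
namespace Vale.Agent.P266.CE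
open IsLocalRing
theorem exists_pair_of_card_le_two {V : Type*} [Zero V] (g : Finset V) (h : g.card ≤ 2) :
    ∃ f₁ f₂ : V, (g : Set V) ⊆ {f₁, f₂} ∧ (f₁ = 0 ∨ f₁ ∈ g) ∧ (f₂ = 0 ∨ f₂ ∈ g) := by
  classical
  interval_cases hc : g.card
  · rw [Finset.card_eq_zero] at hc
    exact ⟨0, 0, by simp [hc], Or.inl rfl, Or.inl rfl⟩
  · rw [Finset.card_eq_one] at hc
    obtain ⟨a, rfl⟩ := hc
    exact ⟨a, 0, by simp, Or.inr (by simp), Or.inl rfl⟩
  · rw [Finset.card_eq_two] at hc
    obtain ⟨a, b, -, rfl⟩ := hc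
    exact ⟨a, b, by simp, Or.inr (by simp), Or.inr (by simp)⟩
theorem not_isRegularLocalRing {A : Type*} [CommRing A] [IsDomain A] [Algebra ℂ A]
    [Algebra.FiniteType ℂ A] (hdim : ringKrullDim A ≤ 2) (m : Ideal A) [hm : m.IsMaximal]
    (E₁ E₂ : Derivation ℂ A A) {c : A} (hc : c ∈ minors E₁ E₂) (hc0 : c ≠ 0)
    (h : ∀ D : Derivation ℂ A A, ∀ f ∈ m, D f ∈ m) :
    ¬ IsRegularLocalRing (Localization.AtPrime m) := by
  classical
  intro hreg
  have hN : IsNoetherianRing A := Algebra.FiniteType.isNoetherianRing ℂ A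
  let V := Localization.AtPrime m
  have hAV : Function.Injective (algebraMap A V) :=
    IsLocalization.injective V m.primeCompl_le_nonZeroDivisors
  have hVdom : IsDomain V := IsLocalization.isDomain_localization m.primeCompl_le_nonZeroDivisors
  have hess : Algebra.EssFiniteType ℂ V :=
    have := Algebra.EssFiniteType.of_isLocalization V m.primeCompl
    Algebra.EssFiniteType.comp ℂ A V
  have hd : ringKrullDim V ≤ 2 := by
    have h1 : ringKrullDim V = m.height := IsLocalization.AtPrime.ringKrullDim_eq_height m V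
    rw [h1]
    exact (Ideal.height_le_ringKrullDim_of_ne_top hm.ne_top).trans hdim
  have hs : ((maximalIdeal V).spanFinrank : WithBot ℕ∞) ≤ 2 := by
    rw [IsRegularLocalRing.spanFinrank_maximalIdeal]
    exact hd
  have hs2 : (maximalIdeal V).spanFinrank ≤ 2 := by exact_mod_cast hs
  have hfg : (maximalIdeal V).FG := IsNoetherian.noetherian _
  obtain ⟨g, hgc, hg⟩ := Submodule.FG.exists_span_finset_card_eq_spanFinrank hfg
  obtain ⟨f₁, f₂, hgf, hf₁, hf₂⟩ := exists_pair_of_card_le_two g (by omega)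
  have hgm : ∀ f : V, f = 0 ∨ f ∈ g → f ∈ maximalIdeal V := by
    rintro f (rfl | hf)
    · exact zero_mem _
    · rw [← hg]; exact Submodule.subset_span hf
  have hspan : ∀ v ∈ maximalIdeal V, ∃ a b : V, a * f₁ + b * f₂ = v := by
    intro v hv
    have h1 : v ∈ Submodule.span V ({f₁, f₂} : Set V) := by
      rw [← hg] at hv
      exact Submodule.span_mono hgf hv
    exact Submodule.mem_span_pair.1 h1
  let _ : Field (A ⧸ m) := Ideal.Quotient.field m
  have hfin : Module.Finite ℂ (A ⧸ m) := finite_of_finite_type_of_isJacobsonRing ℂ (A ⧸ m)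
  have hbij : Function.Bijective (algebraMap ℂ (A ⧸ m)) :=
    IsAlgClosed.algebraMap_bijective_of_isIntegral
  have hresA : ∀ a : A, ∃ z : ℂ, a - algebraMap ℂ A z ∈ m := by
    intro a
    obtain ⟨z, hz⟩ := hbij.2 (Ideal.Quotient.mk m a)
    refine ⟨z, ?_⟩
    rw [← Ideal.Quotient.eq_zero_iff_mem, map_sub, ← hz]
    exact sub_self _
  have hmV : ∀ a : A, algebraMap A V a ∈ maximalIdeal V ↔ a ∈ m := fun a =>
    IsLocalization.AtPrime.to_map_mem_maximal_iff V m a
  have hres : ∀ v : V, ∃ z : ℂ, v - algebraMap ℂ V z ∈ maximalIdeal V := by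
    intro v
    obtain ⟨⟨a, s⟩, has⟩ := IsLocalization.surj m.primeCompl v
    obtain ⟨z, hz⟩ := hresA a
    obtain ⟨t, ht⟩ := hresA (s : A)
    have ht0 : t ≠ 0 := by
      rintro rfl
      rw [map_zero, sub_zero] at ht
      exact s.2 ht
    refine ⟨z / t, ?_⟩
    have h1 : algebraMap A V (s : A) * (v - algebraMap ℂ V (z / t)) ∈ maximalIdeal V := by
      have e1 : algebraMap A V (s : A) * (v - algebraMap ℂ V (z / t)) =
          algebraMap A V (a - algebraMap ℂ A z) -
            algebraMap ℂ V (z / t) * algebraMap A V ((s : A) - algebraMap ℂ A t) := by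
        have e2 : algebraMap ℂ V (z / t) * algebraMap ℂ V t = algebraMap ℂ V z := by
          rw [← map_mul, div_mul_cancel₀ _ ht0]
        rw [map_sub, map_sub, ← IsScalarTower.algebraMap_apply ℂ A V,
          ← IsScalarTower.algebraMap_apply ℂ A V]
        have has' : v * algebraMap A V (s : A) = algebraMap A V a := has
        linear_combination has' - e2
      rw [e1]
      exact sub_mem ((hmV _).2 hz) (Ideal.mul_mem_left _ _ ((hmV _).2 ht))
    rcases (Ideal.IsPrime.mem_or_mem (inferInstance : (maximalIdeal V).IsPrime) h1) with h2 | h2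
    · exact absurd ((hmV _).1 h2) s.2
    · exact h2
  let d := KaehlerDifferential.D ℂ V
  have hfinΩ : Module.Finite V (Ω[V⁄ℂ]) := inferInstance
  have htop : Submodule.span V {d f₁, d f₂} = (⊤ : Submodule V (Ω[V⁄ℂ])) := by
    rw [eq_top_iff]
    refine Submodule.le_of_le_smul_of_le_jacobson_bot (I := maximalIdeal V)
      (IsNoetherian.noetherian _) (maximalIdeal_le_jacobson ⊥) ?_
    rw [← KaehlerDifferential.span_range_derivation ℂ V, Submodule.span_le]
    rintro _ ⟨v, rfl⟩
    obtain ⟨z, hz⟩ := hres v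
    obtain ⟨a, b, hab⟩ := hspan _ hz
    have e1 : d v = a • d f₁ + b • d f₂ + (f₁ • d a + f₂ • d b) := by
      have e2 : v = algebraMap ℂ V z + (a * f₁ + b * f₂) := by rw [hab]; ring
      have e3 : d v = d (algebraMap ℂ V z + (a * f₁ + b * f₂)) := congrArg d e2
      rw [e3, map_add, map_add, Derivation.leibniz, Derivation.leibniz, d.map_algebraMap, zero_add]
      abel
    change d v ∈ _
    rw [e1]
    refine Submodule.add_mem_sup ?_ ?_
    · exact add_mem (Submodule.smul_mem _ _ (Submodule.subset_span (by simp)))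
        (Submodule.smul_mem _ _ (Submodule.subset_span (by simp)))
    · rw [KaehlerDifferential.span_range_derivation]
      exact add_mem (Submodule.smul_mem_smul (hgm _ hf₁) trivial)
        (Submodule.smul_mem_smul (hgm _ hf₂) trivial)
  have hpair : ∀ w : Ω[V⁄ℂ], ∃ a b : V, a • d f₁ + b • d f₂ = w := by
    intro w
    have : w ∈ Submodule.span V {d f₁, d f₂} := by rw [htop]; trivial
    exact Submodule.mem_span_pair.1 this
  have hfe : Algebra.FormallyEtale A V := .of_isLocalization m.primeCompl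
  obtain ⟨F₁, hF₁⟩ := exists_der_ext ℂ ((Algebra.linearMap A V).compDer E₁)
  obtain ⟨F₂, hF₂⟩ := exists_der_ext ℂ ((Algebra.linearMap A V).compDer E₂)
  have hcV : algebraMap A V c ∈ minors F₁ F₂ := minors_map (algebraMap A V) E₁ E₂ F₁ F₂ hF₁ hF₂ hc
  have hcV0 : algebraMap A V c ≠ 0 := fun h0 => hc0 (hAV (by rw [h0, map_zero]))
  have hexp : ∀ (F : Derivation ℂ V V) (u a b : V), a • d f₁ + b • d f₂ = d u →
      F u = a * F f₁ + b * F f₂ := by
    intro F u a b hu
    have h1 := congrArg F.liftKaehlerDifferential hu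
    rw [map_add, map_smul, map_smul, Derivation.liftKaehlerDifferential_comp_D,
      Derivation.liftKaehlerDifferential_comp_D, Derivation.liftKaehlerDifferential_comp_D] at h1
    rw [← h1, smul_eq_mul, smul_eq_mul]
  have hΔ : F₁ f₁ * F₂ f₂ - F₁ f₂ * F₂ f₁ ≠ 0 := by
    intro h0
    apply hcV0
    have hle : minors F₁ F₂ ≤ ⊥ := by
      rw [minors, Ideal.span_le]
      rintro _ ⟨u, v, rfl⟩
      obtain ⟨a, b, hu⟩ := hpair (d u)
      obtain ⟨a', b', hv⟩ := hpair (d v)
      change _ ∈ (⊥ : Ideal V)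
      rw [Ideal.mem_bot, hexp F₁ u a b hu, hexp F₂ u a b hu, hexp F₁ v a' b' hv,
        hexp F₂ v a' b' hv]
      linear_combination (a * b' - b * a') * h0
    exact hle hcV
  have hli : LinearIndependent V ![d f₁, d f₂] := by
    rw [LinearIndependent.pair_iff]
    intro a b hab
    have h1 : 0 = a * F₁ f₁ + b * F₁ f₂ := by
      have := hexp F₁ 0 a b (by rw [hab, map_zero])
      rwa [map_zero] at this
    have h2 : 0 = a * F₂ f₁ + b * F₂ f₂ := by
      have := hexp F₂ 0 a b (by rw [hab, map_zero])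
      rwa [map_zero] at this
    constructor
    · apply (mul_eq_zero.1 (?_ : a * (F₁ f₁ * F₂ f₂ - F₁ f₂ * F₂ f₁) = 0)).resolve_right hΔ
      linear_combination (-F₂ f₂) * h1 + F₁ f₂ * h2
    · apply (mul_eq_zero.1 (?_ : b * (F₁ f₁ * F₂ f₂ - F₁ f₂ * F₂ f₁) = 0)).resolve_right hΔ
      linear_combination F₂ f₁ * h1 - F₁ f₁ * h2
  let B := Module.Basis.mk hli (by
    rw [← htop]
    refine Submodule.span_mono ?_
    rintro w (rfl | rfl)
    · exact ⟨0, rfl⟩
    · exact ⟨1, rfl⟩)
  let φ : Ω[V⁄ℂ] →ₗ[V] V := B.coord 0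
  have hφ : φ (d f₁) = 1 := by
    have hB : B 0 = d f₁ := by simp [B]
    rw [← hB]
    simp [φ]
  have hfp : Module.FinitePresentation A (Ω[A⁄ℂ]) := Module.finitePresentation_of_finite A _
  let g' : Ω[A⁄ℂ] →ₗ[A] V := (φ.restrictScalars A) ∘ₗ KaehlerDifferential.map ℂ ℂ A V
  obtain ⟨ψ, s, hψs⟩ := Module.FinitePresentation.exists_lift_of_isLocalizedModule m.primeCompl
    (Algebra.linearMap A V) g'
  let D : Derivation ℂ A A := ψ.compDer (KaehlerDifferential.D ℂ A)
  have hD : ∀ a, algebraMap A V (D a) = algebraMap A V s * φ (d (algebraMap A V a)) := by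
    intro a
    have h1 := LinearMap.congr_fun hψs (KaehlerDifferential.D ℂ A a)
    have h2 : algebraMap A V (ψ (KaehlerDifferential.D ℂ A a)) = algebraMap A V s *
        φ (KaehlerDifferential.D ℂ V (algebraMap A V a)) := by
      simpa [g', Submonoid.smul_def, Algebra.smul_def] using h1
    exact h2
  obtain ⟨⟨a, t⟩, hat⟩ := IsLocalization.surj m.primeCompl f₁
  have hat' : f₁ * algebraMap A V (t : A) = algebraMap A V a := hat
  have hf₁m : f₁ ∈ maximalIdeal V := hgm _ hf₁
  have ham : a ∈ m := by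
    rw [← hmV, ← hat']
    exact Ideal.mul_mem_right _ _ hf₁m
  have h1 : algebraMap A V (D a) ∈ maximalIdeal V := (hmV _).2 (h D a ham)
  rw [hD, ← hat', Derivation.leibniz, map_add, map_smul, map_smul, hφ, smul_eq_mul, smul_eq_mul,
    mul_one, mul_add] at h1
  have h2 : algebraMap A V (s : A) * algebraMap A V (t : A) ∈ maximalIdeal V := by
    have h3 : algebraMap A V (s : A) * (f₁ * φ (d (algebraMap A V (t : A)))) ∈ maximalIdeal V :=
      Ideal.mul_mem_left _ _ (Ideal.mul_mem_right _ _ hf₁m)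
    exact (Ideal.add_mem_iff_right _ h3).1 h1
  rw [← map_mul, hmV] at h2
  rcases Ideal.IsPrime.mem_or_mem hm.isPrime h2 with h3 | h3
  · exact s.2 h3
  · exact t.2 h3
theorem ringKrullDim_le_of_loc {C A : Type*} [CommRing C] [CommRing A] [Algebra C A]
    (M : Submonoid C) [IsLocalization M A] : ringKrullDim A ≤ ringKrullDim C := by
  refine Order.krullDim_le_of_strictMono (fun p => PrimeSpectrum.comap (algebraMap C A) p) ?_
  exact Monotone.strictMono_of_injective (fun p q hpq => Ideal.comap_mono hpq)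
    (PrimeSpectrum.localization_comap_injective A M)
theorem ringKrullDim_le_two {S : Type*} [CommRing S] [Algebra ℂ S] {x y : S}
    (hxy : Algebra.adjoin ℂ {x, y} = ⊤) : ringKrullDim S ≤ 2 := by
  let f : MvPolynomial (Fin 2) ℂ →ₐ[ℂ] S := MvPolynomial.aeval ![x, y]
  have hf : Function.Surjective f := by
    rw [← AlgHom.range_eq_top, eq_top_iff, ← hxy, Algebra.adjoin_le_iff]
    rintro s (rfl | rfl)
    · exact ⟨MvPolynomial.X 0, by simp [f]⟩
    · exact ⟨MvPolynomial.X 1, by simp [f]⟩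
  refine (ringKrullDim_le_of_surjective f.toRingHom hf).trans ?_
  rw [MvPolynomial.ringKrullDim_of_isNoetherianRing, ringKrullDim_eq_zero_of_field]
  simp
end Vale.Agent.P266.CE
end
section
namespace Vale.Agent.P266.CE
open Polynomial
def IsCounterexample (A : Type) [CommRing A] [Algebra ℂ A] : Prop :=
  IsDomain A ∧ Algebra.FiniteType ℂ A ∧ Module.Free A (Derivation ℂ A A) ∧
    ¬ Module.Projective A (Ω[A⁄ℂ]) ∧ ¬ IsRegularRing A ∧ ringKrullDim A ≤ 2 ∧
    Module.finrank A (Derivation ℂ A A) = 2 ∧ IsIntegrallyClosed A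
section
variable {S C : Type} [CommRing S] [IsDomain S] [UniqueFactorizationMonoid S] [Algebra ℂ S]
  [Algebra.FiniteType ℂ S] [CommRing C] [IsDomain C] [Algebra ℂ C] [Algebra S C]
  [IsScalarTower ℂ S C] [Module.Finite S C]
omit [UniqueFactorizationMonoid S] in
theorem exists_of_integrallyClosed [IsIntegrallyClosed C]
    (hinj : Function.Injective (algebraMap S C))
    {x y : S} (hxy : Algebra.adjoin ℂ {x, y} = ⊤)
    (hclosed : ∀ (c : C) (n₁ n₂ : S), n₁ ≠ 0 → n₂ ≠ 0 → IsRelPrime n₁ n₂ →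
      algebraMap S C n₁ ∣ c * algebraMap S C n₂ → algebraMap S C n₁ ∣ c)
    (D₁ D₂ : Derivation ℂ C C) (q : Ideal C) [q.IsMaximal] (hq0 : q ≠ ⊥)
    (hD₁ : ∀ c ∈ q, D₁ c ∈ q) (hD₂ : ∀ c ∈ q, D₂ c ∈ q)
    (g n₁ n₂ : S) (hg : algebraMap S C g ∉ q) (hn₁ : n₁ ≠ 0) (hn₂ : n₂ ≠ 0)
    (hrel : IsRelPrime n₁ n₂)
    (h₁ : algebraMap S C (g * n₁) ∈ minors D₁ D₂)
    (h₂ : algebraMap S C (g * n₂) ∈ minors D₁ D₂) :
    ∃ (A : Type) (_ : CommRing A) (_ : Algebra ℂ A), IsCounterexample A := by
  classical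
  let γ : C := algebraMap S C g
  let A := Localization.Away γ
  have hγ0 : γ ≠ 0 := fun h => hg (by
    change γ ∈ q
    rw [h]; exact zero_mem _)
  have hCA : Function.Injective (algebraMap C A) :=
    IsLocalization.injective A (powers_le_nonZeroDivisors_of_noZeroDivisors hγ0)
  have hAdom : IsDomain A :=
    IsLocalization.isDomain_localization (powers_le_nonZeroDivisors_of_noZeroDivisors hγ0)
  have hCft : Algebra.FiniteType ℂ C := Algebra.FiniteType.trans (S := S) inferInstance inferInstance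
  have hCAft : Algebra.FiniteType C A := IsLocalization.finiteType_of_monoid_fg (.powers γ) A
  have hAft : Algebra.FiniteType ℂ A := Algebra.FiniteType.trans (S := C) inferInstance inferInstance
  have hγu : IsUnit (algebraMap C A γ) := IsLocalization.Away.algebraMap_isUnit γ
  have hfe : Algebra.FormallyEtale C A := .of_isLocalization (.powers γ)
  obtain ⟨E₁, hE₁⟩ := exists_der_ext ℂ ((Algebra.linearMap C A).compDer D₁)
  obtain ⟨E₂, hE₂⟩ := exists_der_ext ℂ ((Algebra.linearMap C A).compDer D₂)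
  have hE₁' : ∀ c : C, E₁ (algebraMap C A c) = algebraMap C A (D₁ c) := hE₁
  have hE₂' : ∀ c : C, E₂ (algebraMap C A c) = algebraMap C A (D₂ c) := hE₂
  have hmin : ∀ n : S, algebraMap S C (g * n) ∈ minors D₁ D₂ →
      algebraMap C A (algebraMap S C n) ∈ minors E₁ E₂ := by
    intro n hn
    have h3 := minors_map (algebraMap C A) D₁ D₂ E₁ E₂ hE₁' hE₂' hn
    rw [map_mul, map_mul] at h3
    obtain ⟨u, hu⟩ := hγu
    have h4 : algebraMap C A (algebraMap S C n) =
        ((u⁻¹ : Aˣ) : A) * (algebraMap C A γ * algebraMap C A (algebraMap S C n)) := by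
      rw [← hu, Units.inv_mul_cancel_left]
    rw [h4]
    exact Ideal.mul_mem_left _ _ h3
  have hm₁ := hmin n₁ h₁
  have hm₂ := hmin n₂ h₂
  have hSA : Function.Injective (algebraMap S A) := by
    rw [IsScalarTower.algebraMap_eq S C A]
    exact hCA.comp hinj
  have hn₁' : algebraMap C A (algebraMap S C n₁) ≠ 0 := by
    intro h
    exact hn₁ (hinj (hCA (by rw [h, map_zero, map_zero])))
  have hCalg : Algebra.IsAlgebraic S C := Algebra.IsIntegral.isAlgebraic
  have hAalg : Algebra.IsAlgebraic S A := by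
    have : Algebra.IsAlgebraic C A := IsLocalization.isAlgebraic A (Submonoid.powers γ)
    exact Algebra.IsAlgebraic.trans S C A
  have h0 : ∀ D : Derivation ℂ A A, D (algebraMap S A x) = 0 → D (algebraMap S A y) = 0 →
      D = 0 := fun D hx hy => der_eq_zero_of_two hSA hxy D hx hy
  have hΔ := minor_ne_zero _ _ h0 E₁ E₂ hm₁ hn₁'
  have hspan : ∀ D : Derivation ℂ A A, ∃ d u v : A, d ≠ 0 ∧ d • D = u • E₁ + v • E₂ := by
    intro D
    refine ⟨_, D (algebraMap S A x) * E₂ (algebraMap S A y) -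
      D (algebraMap S A y) * E₂ (algebraMap S A x),
      E₁ (algebraMap S A x) * D (algebraMap S A y) -
      E₁ (algebraMap S A y) * D (algebraMap S A x), hΔ, ?_⟩
    rw [← sub_eq_zero]
    apply h0
    · simp; ring
    · simp; ring
  have hab : ∀ c : A, algebraMap C A (algebraMap S C n₁) ∣
      c * algebraMap C A (algebraMap S C n₂) → algebraMap C A (algebraMap S C n₁) ∣ c := by
    rintro c ⟨d, hd⟩
    obtain ⟨k, c₀, hc₀⟩ := IsLocalization.Away.surj γ c
    obtain ⟨l, d₀, hd₀⟩ := IsLocalization.Away.surj γ d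
    have h5 : algebraMap S C n₁ ∣ (γ ^ l * c₀) * algebraMap S C n₂ := by
      refine ⟨γ ^ k * d₀, hCA ?_⟩
      simp only [map_mul, map_pow]
      rw [← hc₀, ← hd₀]
      linear_combination (algebraMap C A γ ^ k * algebraMap C A γ ^ l) * hd
    obtain ⟨e, he⟩ := hclosed _ n₁ n₂ hn₁ hn₂ hrel h5
    obtain ⟨u, hu⟩ := hγu
    refine ⟨((u⁻¹ : Aˣ) : A) ^ (k + l) * algebraMap C A e, ?_⟩
    have h6 := congrArg (algebraMap C A) he
    simp only [map_mul, map_pow] at h6
    rw [← hc₀, ← hu] at h6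
    have h7 : ((u⁻¹ : Aˣ) : A) * (u : A) = 1 := Units.inv_mul u
    have h8 : ((u⁻¹ : Aˣ) : A) ^ (k + l) * (u : A) ^ (k + l) = 1 := by
      rw [← mul_pow, h7, one_pow]
    calc c = (((u⁻¹ : Aˣ) : A) ^ (k + l) * (u : A) ^ (k + l)) * c := by rw [h8, one_mul]
      _ = ((u⁻¹ : Aˣ) : A) ^ (k + l) * ((u : A) ^ l * (c * (u : A) ^ k)) := by ring
      _ = _ := by rw [h6]; ring
  obtain ⟨b, hb0, hb1⟩ := exists_basis E₁ E₂ hspan hm₁ hm₂ hn₁' hab
  have hjac : IsJacobsonRing C := isJacobsonRing_of_finiteType (A := ℂ)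
  let m : Ideal A := q.map (algebraMap C A)
  have hm : m.IsMaximal := IsLocalization.isMaximal_of_isMaximal_disjoint γ q ‹_› hg
  have hmbot : m ≠ ⊥ := by
    intro h
    apply hq0
    rw [eq_bot_iff]
    intro c hc
    have h3 : algebraMap C A c ∈ m := Ideal.mem_map_of_mem _ hc
    rw [h, Ideal.mem_bot] at h3
    rw [Ideal.mem_bot]
    exact hCA (by rw [h3, map_zero])
  have hstab : ∀ (D : Derivation ℂ C C) (E : Derivation ℂ A A)
      (_ : ∀ c : C, E (algebraMap C A c) = algebraMap C A (D c)) (_ : ∀ c ∈ q, D c ∈ q),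
      ∀ a ∈ m, E a ∈ m := by
    intro D E hE hD a ha
    induction ha using Submodule.span_induction with
    | mem a ha =>
      obtain ⟨c, hc, rfl⟩ := ha
      rw [hE]
      exact Ideal.mem_map_of_mem _ (hD c hc)
    | zero => rw [map_zero]; exact zero_mem _
    | add a b _ _ ha hb => rw [map_add]; exact add_mem ha hb
    | smul t a hta ih =>
      rw [smul_eq_mul, Derivation.leibniz, smul_eq_mul, smul_eq_mul]
      exact add_mem (Ideal.mul_mem_left _ _ ih) (Ideal.mul_mem_right _ _ hta)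
  have hall : ∀ D : Derivation ℂ A A, ∀ f ∈ m, D f ∈ m := by
    intro D f hf
    rw [← b.sum_repr D]
    simp only [Fin.sum_univ_two, hb0, hb1]
    rw [Derivation.add_apply, Derivation.smul_apply, Derivation.smul_apply, smul_eq_mul,
      smul_eq_mul]
    exact add_mem (Ideal.mul_mem_left _ _ (hstab D₁ E₁ hE₁' hD₁ f hf))
      (Ideal.mul_mem_left _ _ (hstab D₂ E₂ hE₂' hD₂ f hf))
  have hdim : ringKrullDim A ≤ 2 :=
    (ringKrullDim_le_of_loc (.powers γ)).trans
      ((ringKrullDim_le_of_isIntegral S C).trans (ringKrullDim_le_two hxy))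
  exact ⟨A, inferInstance, inferInstance, hAdom, hAft, Module.Free.of_basis b,
    not_projective_kaehler m hmbot hall, fun hreg =>
      not_isRegularLocalRing hdim m E₁ E₂ hm₁ hn₁' hall
        (hreg.isRegularLocalRing_localization m), hdim,
    by simpa using Module.finrank_eq_card_basis b,
    isIntegrallyClosed_of_isLocalization _ (.powers γ)
      (powers_le_nonZeroDivisors_of_noZeroDivisors hγ0)⟩
end
end Vale.Agent.P266.CE
end
section
namespace Vale.Agent.P266.CE
open Polynomial
section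
variable {S B : Type} [CommRing S] [IsDomain S] [UniqueFactorizationMonoid S] [Algebra ℂ S]
  [Algebra.FiniteType ℂ S] [CommRing B] [IsDomain B] [Algebra ℂ B] [Algebra S B]
  [IsScalarTower ℂ S B] [Module.Finite S B]
theorem isUnit_natCast (T : Type) [CommRing T] [Algebra ℂ T] (n : ℕ) (hn : n ≠ 0) :
    IsUnit (n : T) := by
  have h1 : IsUnit (n : ℂ) := isUnit_iff_ne_zero.2 (Nat.cast_ne_zero.2 hn)
  have h2 := h1.map (algebraMap ℂ T)
  rwa [map_natCast] at h2
theorem exists_of_domain (hinj : Function.Injective (algebraMap S B))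
    {x y : S} (hxy : Algebra.adjoin ℂ {x, y} = ⊤)
    (D₁ D₂ : Derivation ℂ B B) (m : Ideal B) [m.IsMaximal] (hm0 : m ≠ ⊥)
    (hD₁ : ∀ c ∈ m, D₁ c ∈ m) (hD₂ : ∀ c ∈ m, D₂ c ∈ m)
    (g n₁ n₂ : S) (hg : algebraMap S B g ∉ m) (hn₁ : n₁ ≠ 0) (hn₂ : n₂ ≠ 0)
    (hrel : IsRelPrime n₁ n₂)
    (h₁ : algebraMap S B (g * n₁) ∈ minors D₁ D₂)
    (h₂ : algebraMap S B (g * n₂) ∈ minors D₁ D₂) :
    ∃ (A : Type) (_ : CommRing A) (_ : Algebra ℂ A), IsCounterexample A := by
  classical
  have hSN : IsNoetherianRing S := Algebra.FiniteType.isNoetherianRing ℂ S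
  have hBft : Algebra.FiniteType ℂ B := Algebra.FiniteType.trans (S := S) inferInstance inferInstance
  have hBN : IsNoetherianRing B := Algebra.FiniteType.isNoetherianRing ℂ B
  let K := FractionRing B
  let L := FractionRing S
  have hfs : FaithfulSMul S K := by
    rw [faithfulSMul_iff_algebraMap_injective, IsScalarTower.algebraMap_eq S B K]
    exact (IsFractionRing.injective B K).comp hinj
  let _ : Algebra L K := FractionRing.liftAlgebra S K
  have hSLK : IsScalarTower S L K := inferInstance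
  have hfd : FiniteDimensional L K := by
    have h1 : Algebra.IsAlgebraic L K := isAlgebraic_of_isFractionRing S B ..
    have h2 : Algebra.EssFiniteType B K := .of_isLocalization K (nonZeroDivisors B)
    have h3 : Algebra.EssFiniteType S K := .comp S B K
    have h4 : Algebra.EssFiniteType L K := .of_comp S L K
    exact Algebra.finite_of_essFiniteType_of_isAlgebraic
  have hcz : CharZero L := by
    have : CharZero S := charZero_of_injective_algebraMap (algebraMap ℂ S).injective
    exact charZero_of_injective_algebraMap (IsFractionRing.injective S L)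
  let C := integralClosure S K
  have hCfin : Module.Finite S C := IsIntegralClosure.finite S L K C
  have hCic : IsIntegrallyClosed C := integralClosure.isIntegrallyClosedOfFiniteExtension L
  obtain ⟨E₁, hE₁⟩ := exists_der_integralClosure (k := ℂ) (S := S) (B := B) (K := K)
    (isUnit_natCast B) D₁
  obtain ⟨E₂, hE₂⟩ := exists_der_integralClosure (k := ℂ) (S := S) (B := B) (K := K)
    (isUnit_natCast B) D₂
  have hBC : ∀ b : B, algebraMap B K b ∈ C := fun b =>
    (Algebra.IsIntegral.isIntegral (R := S) b).map (IsScalarTower.toAlgHom S B K)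
  let f : B →ₐ[S] C := (IsScalarTower.toAlgHom S B K).codRestrict C hBC
  have hf : ∀ b, ((f b : C) : K) = algebraMap B K b := fun b => rfl
  have hfE₁ : ∀ b, E₁ (f b) = f (D₁ b) := fun b => Subtype.ext (hE₁ b (hBC b))
  have hfE₂ : ∀ b, E₂ (f b) = f (D₂ b) := fun b => Subtype.ext (hE₂ b (hBC b))
  have hfinj : Function.Injective f := by
    intro a b hab
    apply IsFractionRing.injective B K
    rw [← hf, ← hf, hab]
  let _ : Algebra B C := f.toRingHom.toAlgebra
  have hSBC : IsScalarTower S B C := .of_algebraMap_eq' f.comp_algebraMap.symm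
  have hBCint : Algebra.IsIntegral B C := Algebra.IsIntegral.tower_top S
  have hfa : ∀ b, algebraMap B C b = f b := fun b => rfl
  have hSC : Function.Injective (algebraMap S C) := by
    rw [IsScalarTower.algebraMap_eq S B C]
    exact hfinj.comp hinj
  obtain ⟨q, -, hq, hqm⟩ := Ideal.exists_ideal_over_prime_of_isIntegral m (⊥ : Ideal C) (by
    intro b hb
    have h1 : algebraMap B C b = 0 := hb
    have h2 : b = 0 := hfinj (by rw [← hfa, h1, map_zero])
    rw [h2]; exact zero_mem _)
  have hqmax : q.IsMaximal := Ideal.isMaximal_of_isIntegral_of_isMaximal_comap q (by rw [hqm]; infer_instance)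
  have hq0 : q ≠ ⊥ := by
    rintro rfl
    apply hm0
    rw [← hqm, eq_bot_iff]
    intro b hb
    have h1 : algebraMap B C b = 0 := hb
    exact hfinj (by rw [← hfa, h1, map_zero])
  have hstab : ∀ (D : Derivation ℂ B B) (E : Derivation ℂ C C)
      (_ : ∀ b : B, E (f b) = f (D b)) (_ : ∀ b ∈ m, D b ∈ m), ∀ c ∈ q, E c ∈ q := by
    intro D E hE hD
    have hmin : q ∈ ((q.under B).map (algebraMap B C)).minimalPrimes :=
      Ideal.IsIntegral.mem_minimalPrimes_map_under q
    have hqm' : q.under B = m := hqm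
    rw [hqm'] at hmin
    refine stable_of_mem_minimalPrimes (R := ℂ) (isUnit_natCast C) E ?_ hmin
    intro a ha
    induction ha using Submodule.span_induction with
    | mem a ha =>
      obtain ⟨b, hb, rfl⟩ := ha
      rw [hfa, hE, ← hfa]
      exact Ideal.mem_map_of_mem _ (hD b hb)
    | zero => rw [map_zero]; exact zero_mem _
    | add a b _ _ ha hb => rw [map_add]; exact add_mem ha hb
    | smul t a hta ih =>
      rw [smul_eq_mul, Derivation.leibniz, smul_eq_mul, smul_eq_mul]
      exact add_mem (Ideal.mul_mem_left _ _ ih) (Ideal.mul_mem_right _ _ hta)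
  have hgq : algebraMap S C g ∉ q := by
    intro h
    apply hg
    rw [← hqm]
    rw [IsScalarTower.algebraMap_apply S B C] at h
    exact h
  have hclosed : ∀ (c : C) (n₁ n₂ : S), n₁ ≠ 0 → n₂ ≠ 0 → IsRelPrime n₁ n₂ →
      algebraMap S C n₁ ∣ c * algebraMap S C n₂ → algebraMap S C n₁ ∣ c := by
    rintro c n₁ n₂ h1 h2 h3 ⟨d, hd⟩
    have hSK : ∀ s : S, ((algebraMap S C s : C) : K) = algebraMap S K s := fun s => rfl
    have h4 : algebraMap S K n₁ ≠ 0 := by
      rw [Ne, FaithfulSMul.algebraMap_eq_zero_iff]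
      exact h1
    let u : K := (c : K) / algebraMap S K n₁
    have h5 : algebraMap S K n₁ * u = c := by
      change algebraMap S K n₁ * ((c : K) / algebraMap S K n₁) = c
      rw [mul_comm, div_mul_cancel₀ _ h4]
    have h6 : algebraMap S K n₂ * u = d := by
      have h7 := congrArg (fun z : C => (z : K)) hd
      have h8 : (c : K) * algebraMap S K n₂ = algebraMap S K n₁ * d := h7
      change algebraMap S K n₂ * ((c : K) / algebraMap S K n₁) = d
      rw [← mul_div_assoc, div_eq_iff h4]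
      linear_combination h8
    have hu : IsIntegral S u := by
      refine isIntegral_of_relPrime (S := S) (L := L) (K := K)
        (Algebra.IsIntegral.isIntegral u) h1 h2 h3 ?_ ?_
      · rw [h5]; exact c.2
      · rw [h6]; exact d.2
    refine ⟨⟨u, hu⟩, Subtype.ext ?_⟩
    change (c : K) = algebraMap S K n₁ * u
    exact h5.symm
  have hmin : ∀ n : S, algebraMap S B n ∈ minors D₁ D₂ → algebraMap S C n ∈ minors E₁ E₂ := by
    intro n hn
    have h3 := minors_map (algebraMap B C) D₁ D₂ E₁ E₂ hfE₁ hfE₂ hn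
    rwa [← IsScalarTower.algebraMap_apply S B C] at h3
  exact exists_of_integrallyClosed hSC hxy hclosed E₁ E₂ q hq0 (hstab D₁ E₁ hfE₁ hD₁)
    (hstab D₂ E₂ hfE₂ hD₂) g n₁ n₂ hgq hn₁ hn₂ hrel (hmin _ h₁) (hmin _ h₂)
theorem exists_of_data {R : Type} [CommRing R] [Algebra ℂ R] [Algebra S R]
    [IsScalarTower ℂ S R] [Module.Finite S R] (hinj : Function.Injective (algebraMap S R))
    {x y : S} (hxy : Algebra.adjoin ℂ {x, y} = ⊤)
    (D₁ D₂ : Derivation ℂ R R) (m₀ : Ideal R) [m₀.IsMaximal]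
    (hD₁ : ∀ c ∈ m₀, D₁ c ∈ m₀) (hD₂ : ∀ c ∈ m₀, D₂ c ∈ m₀)
    (hm₀ : ∀ p : Ideal R, p.IsPrime → p.comap (algebraMap S R) = ⊥ → p ≤ m₀)
    (s₀ : S) (hs₀ : s₀ ≠ 0) (hs₀m : algebraMap S R s₀ ∈ m₀)
    (g n₁ n₂ : S) (hg : algebraMap S R g ∉ m₀) (hn₁ : n₁ ≠ 0) (hn₂ : n₂ ≠ 0)
    (hrel : IsRelPrime n₁ n₂)
    (h₁ : algebraMap S R (g * n₁) ∈ minors D₁ D₂)
    (h₂ : algebraMap S R (g * n₂) ∈ minors D₁ D₂) :
    ∃ (A : Type) (_ : CommRing A) (_ : Algebra ℂ A), IsCounterexample A := by
  obtain ⟨p, -, hp, hpS⟩ := Ideal.exists_ideal_over_prime_of_isIntegral (⊥ : Ideal S)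
    (⊥ : Ideal R) (by
      intro s hs
      have h1 : algebraMap S R s = 0 := hs
      have h2 : s = 0 := hinj (by rw [h1, map_zero])
      rw [h2]; exact zero_mem _)
  have hpm : p ≤ m₀ := hm₀ p hp hpS
  have hpmin : p ∈ (⊥ : Ideal R).minimalPrimes := by
    refine ⟨⟨hp, bot_le⟩, fun q ⟨hq, _⟩ hqp => ?_⟩
    by_contra hcon
    have h1 : q < p := lt_of_le_not_ge hqp hcon
    have h2 := Ideal.IsIntegral.comap_lt_comap (R := S) h1
    rw [hpS] at h2
    exact not_lt_bot h2
  have hstab : ∀ D : Derivation ℂ R R, ∀ a ∈ p, D a ∈ p := fun D =>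
    stable_of_mem_minimalPrimes (isUnit_natCast R) D (fun x hx => by
      rw [Ideal.mem_bot] at hx ⊢
      rw [hx, map_zero]) hpmin
  let B := R ⧸ p
  let π : R →ₐ[ℂ] B := Ideal.Quotient.mkₐ ℂ p
  have hπ : Function.Surjective π := Ideal.Quotient.mk_surjective
  have hπ0 : ∀ a, π a = 0 ↔ a ∈ p := fun a => Ideal.Quotient.eq_zero_iff_mem
  have hd : ∀ D : Derivation ℂ R R, ∀ a, π a = 0 → π (D a) = 0 := fun D a ha =>
    (hπ0 _).2 (hstab D a ((hπ0 _).1 ha))
  let E₁ : Derivation ℂ B B := Derivation.liftOfSurjective (d := D₁) hπ (hd D₁)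
  let E₂ : Derivation ℂ B B := Derivation.liftOfSurjective (d := D₂) hπ (hd D₂)
  have hE₁ : ∀ a, E₁ (π a) = π (D₁ a) := fun a =>
    Derivation.liftOfSurjective_apply (d := D₁) hπ (hd D₁) a
  have hE₂ : ∀ a, E₂ (π a) = π (D₂ a) := fun a =>
    Derivation.liftOfSurjective_apply (d := D₂) hπ (hd D₂) a
  have hSB : ∀ s, algebraMap S B s = π (algebraMap S R s) := fun s => rfl
  have hinjB : Function.Injective (algebraMap S B) := by
    rw [injective_iff_map_eq_zero]
    intro s hs
    rw [hSB, hπ0] at hs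
    have h1 : s ∈ p.comap (algebraMap S R) := hs
    rw [hpS] at h1
    exact h1
  let m : Ideal B := m₀.map π.toRingHom
  have hcomap : ∀ a, π a ∈ m ↔ a ∈ m₀ := by
    intro a
    have h1 := Ideal.comap_map_of_surjective π.toRingHom hπ m₀
    have h2 : (⊥ : Ideal B).comap π.toRingHom = p := by
      ext a
      exact hπ0 a
    rw [h2, sup_eq_left.2 hpm] at h1
    rw [← h1]
    rfl
  have hmmax : m.IsMaximal := by
    rcases Ideal.map_eq_top_or_isMaximal_of_surjective π.toRingHom hπ ‹m₀.IsMaximal› with h | h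
    · exfalso
      have h1 : π 1 ∈ m := by
        have h2 : m = ⊤ := h
        rw [h2]; trivial
      rw [hcomap] at h1
      exact (Ideal.IsMaximal.ne_top ‹m₀.IsMaximal›) ((Ideal.eq_top_iff_one _).2 h1)
    · exact h
  have hm0 : m ≠ ⊥ := by
    intro h
    apply hs₀
    apply hinjB
    have h1 : π (algebraMap S R s₀) ∈ m := (hcomap _).2 hs₀m
    rw [h, Ideal.mem_bot] at h1
    rw [map_zero, hSB, h1]
  have hstab' : ∀ (D : Derivation ℂ R R) (E : Derivation ℂ B B) (_ : ∀ a, E (π a) = π (D a))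
      (_ : ∀ c ∈ m₀, D c ∈ m₀), ∀ b ∈ m, E b ∈ m := by
    intro D E hE hD b hb
    obtain ⟨a, rfl⟩ := hπ b
    rw [hE, hcomap]
    exact hD a ((hcomap a).1 hb)
  have hmin : ∀ n : S, algebraMap S R n ∈ minors D₁ D₂ → algebraMap S B n ∈ minors E₁ E₂ :=
    fun n hn => minors_map π.toRingHom D₁ D₂ E₁ E₂ hE₁ hE₂ hn
  refine exists_of_domain hinjB hxy E₁ E₂ m hm0 (hstab' D₁ E₁ hE₁ hD₁) (hstab' D₂ E₂ hE₂ hD₂)
    g n₁ n₂ ?_ hn₁ hn₂ hrel (hmin _ h₁) (hmin _ h₂)
  rw [hSB, hcomap]
  exact hg
end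
theorem exists_not_smooth (h : ∃ (A : Type) (_ : CommRing A) (_ : Algebra ℂ A),
    IsCounterexample A) :
    ∃ (A : Type) (_ : CommRing A) (_ : IsDomain A) (_ : Algebra ℂ A),
      Algebra.FiniteType ℂ A ∧ Module.Free A (Derivation ℂ A A) ∧
        ¬ Algebra.Smooth ℂ A ∧ ¬ IsRegularRing A := by
  obtain ⟨A, hA, hCA, hdom, hft, hfree, hnp, hnr, -, -, -⟩ := h
  exact ⟨A, hA, hdom, hCA, hft, hfree, fun hs => hnp inferInstance, hnr⟩
theorem le_of_unique {S R : Type} [CommRing S] [CommRing R] [Algebra S R]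
    [Algebra.IsIntegral S R] (n : Ideal S) [n.IsMaximal] (m₀ : Ideal R)
    (huniq : ∀ q : Ideal R, q.IsMaximal → n.map (algebraMap S R) ≤ q → q = m₀)
    (p : Ideal R) (_ : p.IsPrime) (hpS : p.comap (algebraMap S R) = ⊥) : p ≤ m₀ := by
  obtain ⟨q, hpq, hq, hqn⟩ := Ideal.exists_ideal_over_prime_of_isIntegral n p (by
    rw [hpS]; exact bot_le)
  have hqmax : q.IsMaximal :=
    Ideal.isMaximal_of_isIntegral_of_isMaximal_comap q (by rw [hqn]; infer_instance)
  have h1 : q = m₀ := huniq q hqmax (by rw [Ideal.map_le_iff_le_comap, hqn])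
  rw [← h1]
  exact hpq
end Vale.Agent.P266.CE
end
section
namespace Vale.Agent.P266.CE
theorem two_le_ringKrullDim (A : Type) [CommRing A] [IsDomain A] [IsNoetherianRing A]
    [IsIntegrallyClosed A] (h : ¬ IsRegularRing A) : 2 ≤ ringKrullDim A := by
  by_contra hlt
  apply h
  have h1 : Ring.DimensionLEOne A := by
    refine ⟨fun {p} hp0 hp => ?_⟩
    by_contra hnm
    obtain ⟨q, hq, hpq⟩ := p.exists_le_maximal hp.ne_top
    have hlt' : p < q := lt_of_le_of_ne hpq fun h => hnm (h ▸ hq)
    apply hlt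
    let s : LTSeries (PrimeSpectrum A) :=
      { length := 2
        toFun := ![⟨⊥, Ideal.isPrime_bot⟩, ⟨p, hp⟩, ⟨q, hq.isPrime⟩]
        step := fun i => by
          fin_cases i
          · exact bot_lt_iff_ne_bot.2 hp0
          · exact hlt' }
    exact Order.LTSeries.length_le_krullDim s
  have h2 : IsDedekindRing A := { toIsIntegralClosure := by infer_instance }
  have h3 : IsDedekindDomain A := {}
  infer_instance
theorem exists_normal_surface (h : ∃ (A : Type) (_ : CommRing A) (_ : Algebra ℂ A),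
    IsCounterexample A) :
    ∃ (A : Type) (_ : CommRing A) (_ : IsDomain A) (_ : Algebra ℂ A),
      Algebra.FiniteType ℂ A ∧ IsIntegrallyClosed A ∧ ringKrullDim A = 2 ∧
      Module.Free A (Derivation ℂ A A) ∧ Module.finrank A (Derivation ℂ A A) = 2 ∧
        ¬ IsRegularRing A ∧ ¬ Algebra.Smooth ℂ A := by
  obtain ⟨A, hA, hCA, hdom, hft, hfree, hnp, hnr, hdim, hrk, hic⟩ := h
  have hN : IsNoetherianRing A := Algebra.FiniteType.isNoetherianRing ℂ A
  exact ⟨A, hA, hdom, hCA, hft, hic, le_antisymm hdim (two_le_ringKrullDim A hnr), hfree, hrk, hnr,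
    fun hs => hnp inferInstance⟩
end Vale.Agent.P266.CE
end
section
namespace Vale.Agent.P266.CE.FieldMain
open MvPolynomial
abbrev S2 := MvPolynomial (Fin 2) ℂ
abbrev Om := AlgebraicClosure (FractionRing S2)
def InL {n : ℕ} (b : Fin n → Om) (v : Om) : Prop :=
  ∃ (c0 : S2) (c : Fin n → S2), constantCoeff c0 = 0 ∧
    v = algebraMap S2 Om c0 + ∑ j, algebraMap S2 Om (c j) * b j
theorem exists_of_field {n : ℕ} (b : Fin n → Om) (D₁ D₂ : Derivation ℂ Om Om)
    (hint : ∀ i, ∃ m : ℕ, 0 < m ∧ ∃ (c0 : S2) (c : Fin n → S2), constantCoeff c0 = 0 ∧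
      (∀ j, i ≤ j → c j = 0) ∧ b i ^ m = algebraMap S2 Om c0 + ∑ j, algebraMap S2 Om (c j) * b j)
    (hx₁ : InL b (D₁ (algebraMap S2 Om (X 0)))) (hr₁ : InL b (D₁ (algebraMap S2 Om (X 1))))
    (hb₁ : ∀ i, InL b (D₁ (b i)))
    (hx₂ : InL b (D₂ (algebraMap S2 Om (X 0)))) (hr₂ : InL b (D₂ (algebraMap S2 Om (X 1))))
    (hb₂ : ∀ i, InL b (D₂ (b i)))
    (g n₁ n₂ : S2) (hg : constantCoeff g ≠ 0) (hn₁ : n₁ ≠ 0) (hn₂ : n₂ ≠ 0)
    (hrel : IsRelPrime n₁ n₂)
    (h₁ : ∃ c u v : Om, c ∈ Algebra.adjoin S2 (Set.range b) ∧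
      u ∈ Algebra.adjoin S2 (Set.range b) ∧ v ∈ Algebra.adjoin S2 (Set.range b) ∧
      algebraMap S2 Om (g * n₁) = c * (D₁ u * D₂ v - D₁ v * D₂ u))
    (h₂ : ∃ c u v : Om, c ∈ Algebra.adjoin S2 (Set.range b) ∧
      u ∈ Algebra.adjoin S2 (Set.range b) ∧ v ∈ Algebra.adjoin S2 (Set.range b) ∧
      algebraMap S2 Om (g * n₂) = c * (D₁ u * D₂ v - D₁ v * D₂ u)) :
    ∃ (A : Type) (_ : CommRing A) (_ : Algebra ℂ A), IsCounterexample A := by
  classical
  let R : Subalgebra S2 Om := Algebra.adjoin S2 (Set.range b)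
  have hbR : ∀ i, b i ∈ R := fun i => Algebra.subset_adjoin ⟨i, rfl⟩
  have hSR : ∀ s : S2, algebraMap S2 Om s ∈ R := fun s => R.algebraMap_mem s
  have hSOm : Function.Injective (algebraMap S2 Om) := by
    rw [IsScalarTower.algebraMap_eq S2 (FractionRing S2) Om]
    exact (algebraMap (FractionRing S2) Om).injective.comp (IsFractionRing.injective S2 _)
  have hbint : ∀ i, IsIntegral S2 (b i) := by
    intro i
    induction i using WellFoundedLT.induction with
    | _ i ih =>
      obtain ⟨m, hm, c0, c, -, hc, hb⟩ := hint i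
      refine IsIntegral.of_pow hm ?_
      rw [hb]
      refine isIntegral_algebraMap.add (IsIntegral.sum _ fun j _ => ?_)
      by_cases hij : i ≤ j
      · rw [hc j hij, map_zero, zero_mul]
        exact isIntegral_zero
      · exact isIntegral_algebraMap.mul (ih j (not_le.1 hij))
  have hRfin : Module.Finite S2 R :=
    Algebra.finite_adjoin_of_finite_of_isIntegral (Set.finite_range b) (by
      rintro _ ⟨i, rfl⟩
      exact hbint i)
  have hinj : Function.Injective (algebraMap S2 R) := by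
    intro s t hst
    exact hSOm (congrArg Subtype.val hst)
  have hind : ∀ (p : Om → Prop), (∀ z : ℂ, p (algebraMap ℂ Om z)) →
      p (algebraMap S2 Om (X 0)) → p (algebraMap S2 Om (X 1)) → (∀ i, p (b i)) →
      (∀ u ∈ R, ∀ v ∈ R, p u → p v → p (u + v)) → (∀ u ∈ R, ∀ v ∈ R, p u → p v → p (u * v)) →
      ∀ u ∈ R, p u := by
    intro p hz hX0 hX1 hb hadd hmul u hu
    have hpS : ∀ s : S2, p (algebraMap S2 Om s) := by
      intro s
      induction s using MvPolynomial.induction_on with
      | C z =>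
        have := hz z
        rwa [IsScalarTower.algebraMap_apply ℂ S2 Om] at this
      | add f g hf hg =>
        rw [map_add]
        exact hadd _ (hSR f) _ (hSR g) hf hg
      | mul_X f i hf =>
        rw [map_mul]
        refine hmul _ (hSR f) _ (hSR _) hf ?_
        fin_cases i
        · exact hX0
        · exact hX1
    induction hu using Algebra.adjoin_induction with
    | mem u hu =>
      obtain ⟨i, rfl⟩ := hu
      exact hb i
    | algebraMap s => exact hpS s
    | add u v hu hv h1 h2 => exact hadd u hu v hv h1 h2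
    | mul u v hu hv h1 h2 => exact hmul u hu v hv h1 h2
  let n0 : Ideal S2 := RingHom.ker (constantCoeff : S2 →+* ℂ)
  have hn0 : n0.IsMaximal := RingHom.ker_isMaximal_of_surjective _ fun z => ⟨C z, by simp⟩
  obtain ⟨q, -, hq, hqn⟩ := Ideal.exists_ideal_over_prime_of_isIntegral n0 (⊥ : Ideal R) (by
    intro s hs
    have h3 : algebraMap S2 R s = 0 := hs
    have h4 : s = 0 := hinj (by rw [h3, map_zero])
    rw [h4]
    exact zero_mem _)
  have hqmax : q.IsMaximal :=
    Ideal.isMaximal_of_isIntegral_of_isMaximal_comap q (by rw [hqn]; exact hn0)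
  have hqS : ∀ s : S2, algebraMap S2 R s ∈ q ↔ constantCoeff s = 0 := by
    intro s
    have h3 : s ∈ q.comap (algebraMap S2 R) ↔ s ∈ n0 := by rw [hqn]
    exact h3
  have hmemq : ∀ (c0 : S2) (c : Fin n → S2), constantCoeff c0 = 0 →
      (∀ j, c j = 0 ∨ (⟨b j, hbR j⟩ : R) ∈ q) → ∀ (v : R),
      (v : Om) = algebraMap S2 Om c0 + ∑ j, algebraMap S2 Om (c j) * b j → v ∈ q := by
    intro c0 c h3 h4 v hv
    have h5 : v = algebraMap S2 R c0 + ∑ j, algebraMap S2 R (c j) * ⟨b j, hbR j⟩ := by
      apply Subtype.ext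
      rw [hv]
      simp only [Subalgebra.coe_add, AddSubmonoidClass.coe_finsetSum, Subalgebra.coe_mul,
        Subalgebra.coe_algebraMap]
    rw [h5]
    refine add_mem ((hqS _).2 h3) (sum_mem fun j _ => ?_)
    rcases h4 j with h6 | h6
    · rw [h6, map_zero, zero_mul]
      exact zero_mem _
    · exact Ideal.mul_mem_left _ _ h6
  have hbq : ∀ i, (⟨b i, hbR i⟩ : R) ∈ q := by
    intro i
    induction i using WellFoundedLT.induction with
    | _ i ih =>
      obtain ⟨m, hm, c0, c, hc0, hc, hb⟩ := hint i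
      refine hq.mem_of_pow_mem m ?_
      refine hmemq c0 c hc0 (fun j => ?_) _ hb
      by_cases hij : i ≤ j
      · exact Or.inl (hc j hij)
      · exact Or.inr (ih j (not_le.1 hij))
  have hInL : ∀ v : Om, InL b v → ∃ hv : v ∈ R, (⟨v, hv⟩ : R) ∈ q := by
    rintro v ⟨c0, c, hc0, hv⟩
    have hvR : v ∈ R := by
      rw [hv]
      exact add_mem (hSR _) (sum_mem fun j _ => mul_mem (hSR _) (hbR j))
    exact ⟨hvR, hmemq c0 c hc0 (fun j => Or.inr (hbq j)) ⟨v, hvR⟩ hv⟩
  have hres : ∀ D : Derivation ℂ Om Om, InL b (D (algebraMap S2 Om (X 0))) →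
      InL b (D (algebraMap S2 Om (X 1))) → (∀ i, InL b (D (b i))) →
      ∃ E : Derivation ℂ R R, (∀ a : R, ((E a : R) : Om) = D a) ∧ ∀ a : R, E a ∈ q := by
    intro D hx hr hb
    have key : ∀ u ∈ R, ∃ hv : D u ∈ R, (⟨D u, hv⟩ : R) ∈ q := by
      refine hind (fun u => ∃ hv : D u ∈ R, (⟨D u, hv⟩ : R) ∈ q) ?_ (hInL _ hx) (hInL _ hr)
        (fun i => hInL _ (hb i)) ?_ ?_
      · intro z
        have h3 : D (algebraMap ℂ Om z) = 0 := D.map_algebraMap z
        refine ⟨by rw [h3]; exact zero_mem _, ?_⟩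
        have h4 : (⟨D (algebraMap ℂ Om z), by rw [h3]; exact zero_mem _⟩ : R) = 0 :=
          Subtype.ext h3
        rw [h4]
        exact zero_mem _
      · rintro u hu v hv ⟨h3, h3'⟩ ⟨h4, h4'⟩
        have h5 : D (u + v) = D u + D v := map_add D u v
        refine ⟨by rw [h5]; exact add_mem h3 h4, ?_⟩
        have h6 : (⟨D (u + v), by rw [h5]; exact add_mem h3 h4⟩ : R) = ⟨D u, h3⟩ + ⟨D v, h4⟩ :=
          Subtype.ext h5
        rw [h6]
        exact add_mem h3' h4'
      · rintro u hu v hv ⟨h3, h3'⟩ ⟨h4, h4'⟩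
        have h5 : D (u * v) = u * D v + v * D u := by
          rw [Derivation.leibniz, smul_eq_mul, smul_eq_mul]
        have h5' : D (u * v) ∈ R := by
          rw [h5]; exact add_mem (mul_mem hu h4) (mul_mem hv h3)
        refine ⟨h5', ?_⟩
        have h6 : (⟨D (u * v), h5'⟩ : R) = ⟨u, hu⟩ * ⟨D v, h4⟩ + ⟨v, hv⟩ * ⟨D u, h3⟩ :=
          Subtype.ext h5
        rw [h6]
        exact add_mem (Ideal.mul_mem_left _ _ h4') (Ideal.mul_mem_left _ _ h3')
    choose hv hvq using key
    refine ⟨Derivation.mk'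
      { toFun := fun a => ⟨D a, hv a a.2⟩
        map_add' := fun a c => Subtype.ext (map_add D (a : Om) (c : Om))
        map_smul' := fun z a => Subtype.ext (by
          have h3 : ((z • a : R) : Om) = z • (a : Om) := rfl
          change D ((z • a : R) : Om) = _
          rw [h3, D.map_smul]
          rfl) }
      (fun a c => Subtype.ext ?_), fun a => rfl, fun a => hvq a a.2⟩
    change D ((a * c : R) : Om) = _
    have h3 : ((a * c : R) : Om) = (a : Om) * (c : Om) := rfl
    rw [h3, Derivation.leibniz]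
    rfl
  obtain ⟨E₁, hE₁, hE₁q⟩ := hres D₁ hx₁ hr₁ hb₁
  obtain ⟨E₂, hE₂, hE₂q⟩ := hres D₂ hx₂ hr₂ hb₂
  have hmin : ∀ s : S2, (∃ c u v : Om, c ∈ Algebra.adjoin S2 (Set.range b) ∧
      u ∈ Algebra.adjoin S2 (Set.range b) ∧ v ∈ Algebra.adjoin S2 (Set.range b) ∧
      algebraMap S2 Om s = c * (D₁ u * D₂ v - D₁ v * D₂ u)) →
      algebraMap S2 R s ∈ minors E₁ E₂ := by
    rintro s ⟨c, u, v, hc, hu, hv, h⟩
    have h3 : algebraMap S2 R s = ⟨c, hc⟩ * (E₁ ⟨u, hu⟩ * E₂ ⟨v, hv⟩ - E₁ ⟨v, hv⟩ * E₂ ⟨u, hu⟩) := by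
      apply Subtype.ext
      rw [Subalgebra.coe_mul, Subalgebra.coe_sub, Subalgebra.coe_mul, Subalgebra.coe_mul, hE₁,
        hE₁, hE₂, hE₂]
      exact h
    rw [h3]
    exact Ideal.mul_mem_left _ _ (minor_mem E₁ E₂ _ _)
  have hxy : Algebra.adjoin ℂ {(X 0 : S2), X 1} = ⊤ := by
    have h3 := MvPolynomial.adjoin_range_X (R := ℂ) (σ := Fin 2)
    rw [← h3]
    congr 1
    ext s
    constructor
    · rintro (rfl | rfl)
      · exact ⟨0, rfl⟩
      · exact ⟨1, rfl⟩
    · rintro ⟨i, rfl⟩
      fin_cases i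
      · exact Or.inl rfl
      · exact Or.inr rfl
  have hq0 : q ≠ ⊥ := by
    intro h
    have h3 : algebraMap S2 R (X 0) ∈ q := (hqS _).2 (by simp)
    rw [h, Ideal.mem_bot] at h3
    have h4 : (X 0 : S2) = 0 := hinj (by rw [h3, map_zero])
    exact MvPolynomial.X_ne_zero (R := ℂ) (0 : Fin 2) h4
  exact exists_of_domain hinj hxy E₁ E₂ q hq0 (fun a _ => hE₁q a) (fun a _ => hE₂q a)
    g n₁ n₂ (fun h => hg ((hqS g).1 h)) hn₁ hn₂ hrel (hmin _ h₁) (hmin _ h₂)
end Vale.Agent.P266.CE.FieldMain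
end
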