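import Mathlib
import Vale.Agent.P266.LZ.E4
section
namespace Vale.Agent.P266.CE.M
open E Dat
def qq : ℕ → KB
  | 0 => ⟨1, [1, 1]⟩
  | 1 => ⟨1375, [12, 15]⟩
  | 2 => ⟨1623, [13, 18]⟩
  | 3 => ⟨1503, [12, 15]⟩
  | 4 => ⟨1437, [11, 15]⟩
  | 5 => ⟨1380, [9, 12]⟩
  | 6 => ⟨1381, [11, 13]⟩
  | 7 => ⟨1437, [12, 15]⟩
  | 8 => ⟨1378, [10, 12]⟩
  | 9 => ⟨1435, [10, 14]⟩
  | 10 => ⟨1437, [12, 15]⟩
  | 11 => ⟨1503, [13, 17]⟩
  | _ => ⟨0, []⟩
theorem ck0_ok : dat.ck0 dd ⟨1, [1, 1]⟩ = true := by decide +kernel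
theorem ck1_ok : dat.ck1 mats dd ⟨1375, [12, 15]⟩ = true := by decide +kernel
theorem ck2_ok : dat.ck2 mats dd ⟨1623, [13, 18]⟩ = true := by decide +kernel
theorem ck3_ok : ck3 mats dd ⟨1503, [12, 15]⟩ = true := by decide +kernel
theorem ck4_ok : dat.ck4 mats dd ⟨1437, [11, 15]⟩ = true := by decide +kernel
theorem ck5_ok : dat.ck5 mats dd ⟨1380, [9, 12]⟩ = true := by decide +kernel
theorem ck8_ok : dat.ck8 mats dd ⟨1378, [10, 12]⟩ = true := by decide +kernel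
theorem ck9_ok : dat.ck9 mats dd ⟨1435, [10, 14]⟩ = true := by decide +kernel
theorem ck6_ok : dat.ckx mats dd ⟨1381, [11, 13]⟩ mats.M2 mats.M1 4 5 6 = true := by decide +kernel
theorem ck7_ok : dat.ckz mats dd ⟨1437, [12, 15]⟩ mats.M2 mats.M1 4 5 7 = true := by decide +kernel
theorem ck10_ok : dat.ckx mats dd ⟨1437, [12, 15]⟩ mats.M1 mats.M2 8 9 10 = true := by decide +kernel
theorem ck11_ok : dat.ckz mats dd ⟨1503, [13, 17]⟩ mats.M1 mats.M2 8 9 11 = true := by decide +kernel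
theorem dok : dat.DOK mats dd qq :=
  ⟨ck0_ok, ck1_ok, ck2_ok, ck3_ok, ck4_ok, ck5_ok, ck6_ok, ck7_ok, ck8_ok, ck9_ok, ck10_ok, ck11_ok⟩
end Vale.Agent.P266.CE.M
end
section
namespace Vale.Agent.P266.CE.M
open E Dat
theorem cub4 : cub ⟨188, [4, 6]⟩ (app mats.M1) (const 1) cb4 = true := by decide +kernel
theorem cub5 : cub ⟨375, [7, 11]⟩ (opg mats.M2) (const dat.μ) cb5 = true := by decide +kernel
theorem cub6 : cub ⟨376, [10, 12]⟩ (dat.opx mats mats.M2 mats.M1) (mul (const dat.μ) (var 1)) cb6 = true := by decide +kernel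
theorem cub7 : cub ⟨505, [13, 17]⟩ (dat.opz mats mats.M2 mats.M1) (mul (const dat.μ) (var 1)) cb7 = true := by decide +kernel
theorem cub8 : cub ⟨188, [4, 6]⟩ (app mats.M2) (const 1) cb8 = true := by decide +kernel
theorem cub9 : cub ⟨375, [7, 11]⟩ (opg mats.M1) (const dat.μ) cb9 = true := by decide +kernel
theorem cub10 : cub ⟨376, [10, 12]⟩ (dat.opx mats mats.M1 mats.M2) (mul (const dat.μ) (var 1)) cb10 = true := by decide +kernel
theorem cub11 : cub ⟨505, [13, 17]⟩ (dat.opz mats mats.M1 mats.M2) (mul (const dat.μ) (var 1)) cb11 = true := by decide +kernel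
theorem ckw_ok : ckw dat mats ⟨2625, [17, 22]⟩ U0 (mul U1 dat.F) x4 x5 x6 x7 y4 y5 y6 y7 = true := by decide +kernel
theorem vbs_ok : dat.vbs = true := by decide +kernel
end Vale.Agent.P266.CE.M
end
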